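import Vale.Agent.Lib.P048.NCCheck

namespace Vale.Agent.Lib.P048

/-- The statements at a point as a boolean test. -/
def fieldsB (b i R u v : ℤ) : Bool :=
  decide ((R + 1) + 1 ≤ b - v + u) &&
  decide (R ^ 2 + 1 ≤ 3 * (R * (b - R) - u)) &&
  decide (1 ≤ (R + 1) * (R * (u - v) + u + R) - R ^ 2) &&
  decide (1 ≤ b * (R * (b - 2 * (R + 1) + 1) - u) + (R + 1) * (R * (u - v) + u + R) - R ^ 2) &&
  (decide (v ≤ u) ||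
    (decide (0 ≤ R * (b - 2 * R) - u) &&
     decide (1 ≤ (i + 2 - (v - u)) * (R * b - u) + R * u + R ^ 2 * (v - u) - 2 * (b + 1) * R ^ 2)))

lemma fieldsB_spec {b i R u v : ℤ} (H : fieldsB b i R u v = true) : Fields b i R u v := by
  simp only [fieldsB, Bool.and_eq_true, Bool.or_eq_true, decide_eq_true_eq] at H
  obtain ⟨⟨⟨⟨h1, h2⟩, h3⟩, h4⟩, h5⟩ := H
  refine ⟨h1, h2, h3, h4, ?_, ?_⟩
  · intro h6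
    rcases h5 with h5 | h5
    · omega
    · exact h5.1
  · intro h6
    rcases h5 with h5 | h5
    · omega
    · exact h5.2

/-- The test along a list of increments. -/
def lchk (b i : ℤ) : List ℤ → ℤ → ℤ → ℤ → Bool
  | [], _, _, _ => true
  | d :: T, R, u, d0 =>
    decide (d ≤ d0) && decide (0 ≤ u + d) && fieldsB b i R u (u + d) && lchk b i T (R + 1) (u + d) d

lemma lchk_spec {b i : ℤ} (T : List ℤ) (R u d0 : ℤ) (H : lchk b i T R u d0 = true) :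
    (∀ c, c < T.length → Fields b i (R + c) (u + pT T c) (u + pT T (c + 1))) ∧
    (∀ c, c < T.length → 0 ≤ u + pT T (c + 1)) ∧
    (∀ c, c < T.length → dT T c ≤ d0) ∧
    (∀ c, c + 1 < T.length → dT T (c + 1) ≤ dT T c) := by
  induction T generalizing R u d0 with
  | nil => simp
  | cons d T ih =>
    simp only [lchk, Bool.and_eq_true, decide_eq_true_eq] at H
    obtain ⟨⟨⟨h1, h2⟩, h3⟩, h4⟩ := H
    obtain ⟨i1, i2, i3, i4⟩ := ih (R + 1) (u + d) d h4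
    have e0 : pT (d :: T) 0 = 0 := rfl
    have e1 : ∀ c, pT (d :: T) (c + 1) = d + pT T c := fun c => rfl
    have e2 : ∀ c, dT (d :: T) (c + 1) = dT T c := fun c => rfl
    have e3 : dT (d :: T) 0 = d := rfl
    refine ⟨?_, ?_, ?_, ?_⟩
    · intro c hc
      rcases c with _ | c
      · have := fieldsB_spec h3
        simp only [e1, pT_zero, e0]
        simpa using this
      · have hc' : c < T.length := by simpa using hc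
        have := i1 c hc'
        simp only [e1]
        have e4 : R + ((c + 1 : ℕ) : ℤ) = R + 1 + c := by push_cast; ring
        have e5 : u + (d + pT T c) = u + d + pT T c := by ring
        have e6 : u + (d + pT T (c + 1)) = u + d + pT T (c + 1) := by ring
        rw [e4, e5, e6]
        exact this
    · intro c hc
      rcases c with _ | c
      · simp only [e1, pT_zero]
        simpa using h2
      · have hc' : c < T.length := by simpa using hc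
        have := i2 c hc'
        simp only [e1]
        linarith
    · intro c hc
      rcases c with _ | c
      · rw [e3]
        exact h1
      · have hc' : c < T.length := by simpa using hc
        rw [e2]
        exact le_trans (i3 c hc') h1
    · intro c hc
      rcases c with _ | c
      · rw [e2, e3]
        exact i3 0 (by simpa using hc)
      · rw [e2, e2]
        exact i4 c (by simpa using hc)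

/-- The test of a whole profile given by a list. -/
def listOK (b i : ℕ) : List ℤ → Bool
  | [] => false
  | d :: T =>
    decide (0 ≤ d) && decide (d ≤ (i : ℤ) + 1) && decide (2 * d ≤ (b : ℤ)) &&
    Nat.ble (T.length + 1 + 1) b && Nat.ble (i + 1) b && Nat.ble 3 b &&
    lchk b i T 1 d d

/-- A list passing the test is a profile. -/
theorem prof_of_listOK {b i : ℕ} {L : List ℤ} (H : listOK b i L = true) :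
    Prof b i L.length (pT L) := by
  rcases L with _ | ⟨d, T⟩
  · simp [listOK] at H
  simp only [listOK, Bool.and_eq_true, decide_eq_true_eq, Nat.ble_eq] at H
  obtain ⟨⟨⟨⟨⟨⟨h1, h2⟩, h3⟩, h4⟩, h5⟩, h6⟩, h7⟩ := H
  obtain ⟨i1, i2, i3, i4⟩ := lchk_spec T 1 d d h7
  have e1 : ∀ c, pT (d :: T) (c + 1) = d + pT T c := fun c => rfl
  have hlen : (d :: T).length = T.length + 1 := rfl
  rw [hlen]
  have hs1 : pT (d :: T) 1 = d := by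
    rw [e1, pT_zero]
    ring
  refine prof_of_fields h4 h5 h6 rfl ?_ ?_ ?_ ?_ ?_
  · rw [hs1]
    exact h2
  · rw [hs1]
    exact h3
  · intro j hj1 hj2
    obtain ⟨c, rfl⟩ : ∃ c, j = c + 1 := ⟨j - 1, by omega⟩
    simp only [Nat.add_sub_cancel]
    rw [e1, e1]
    have hc : c < T.length := by omega
    have e2 := pT_succ T c hc
    rcases c with _ | c
    · rw [pT_zero] at e2 ⊢
      have := i3 0 hc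
      have e3 : pT (d :: T) 0 = 0 := rfl
      rw [e3]
      linarith
    · rw [e1]
      have e3 := pT_succ T c (by omega)
      have := i4 c (by omega)
      linarith
  · intro r hr
    rcases r with _ | r
    · exact le_refl _
    · rcases r with _ | r
      · rw [hs1]
        exact h1
      · rw [e1]
        exact i2 r (by omega)
  · intro R hR1 hR2
    obtain ⟨c, rfl⟩ : ∃ c, R = c + 1 := ⟨R - 1, by omega⟩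
    rw [e1, e1]
    have := i1 c (by omega)
    have e2 : ((c + 1 : ℕ) : ℤ) = 1 + c := by push_cast; ring
    rw [e2]
    exact this

/-- Increments at `b = 0`. -/
def lT0 : List ℤ := []

/-- Increments at `b = 1`. -/
def lT1 : List ℤ := []

/-- Increments at `b = 2`. -/
def lT2 : List ℤ := []

/-- Increments at `b = 3`. -/
def lT3 : List ℤ := []

/-- Increments at `b = 4`. -/
def lT4 : List ℤ := []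

/-- Increments at `b = 5`. -/
def lT5 : List ℤ := []

/-- Increments at `b = 6`. -/
def lT6 : List ℤ := [2, 0, 0, -2]

/-- Increments at `b = 7`. -/
def lT7 : List ℤ := []

/-- Increments at `b = 8`. -/
def lT8 : List ℤ := [3, 1, 0, 0, -3]

/-- Increments at `b = 9`. -/
def lT9 : List ℤ := []

/-- Increments at `b = 10`. -/
def lT10 : List ℤ := [4, 2, 0, 0, 0, -3]

/-- Increments at `b = 11`. -/
def lT11 : List ℤ := [4, 2, 0, 0, 0, -1, -4]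

/-- Increments at `b = 12`. -/
def lT12 : List ℤ := [5, 3, 0, 0, 0, 0, -3]

/-- Increments at `b = 13`. -/
def lT13 : List ℤ := [5, 3, 0, 0, 0, 0, -2, -4]

/-- Increments at `b = 14`. -/
def lT14 : List ℤ := [5, 3, 0, 0, 0, 0, 0, -3, -5]

/-- Increments at `b = 15`. -/
def lT15 : List ℤ := [6, 4, 1, 0, 0, 0, 0, -2, -4]

/-- Increments at `b = 16`. -/
def lT16 : List ℤ := [6, 4, 2, 0, 0, 0, 0, 0, -3, -6]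

/-- Increments at `b = 17`. -/
def lT17 : List ℤ := [7, 5, 3, 0, 0, 0, 0, 0, -2, -5]

/-- Increments at `b = 18`. -/
def lT18 : List ℤ := [7, 5, 3, 0, 0, 0, 0, 0, 0, -4, -6]

/-- Increments at `b = 19`. -/
def lT19 : List ℤ := [7, 5, 3, 0, 0, 0, 0, 0, 0, -2, -5, -7]

/-- Increments at `b = 20`. -/
def lT20 : List ℤ := [8, 6, 4, 1, 0, 0, 0, 0, 0, -1, -4, -6]

/-- Increments at `b = 21`. -/
def lT21 : List ℤ := [8, 6, 4, 1, 0, 0, 0, 0, 0, 0, -2, -5, -8]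

/-- Increments at `b = 22`. -/
def lT22 : List ℤ := [8, 6, 4, 1, 0, 0, 0, 0, 0, 0, 0, -4, -6, -9]

/-- Increments at `b = 23`. -/
def lT23 : List ℤ := [9, 7, 5, 2, 0, 0, 0, 0, 0, 0, 0, -2, -5, -8]

/-- Increments at `b = 24`. -/
def lT24 : List ℤ := [9, 7, 5, 2, 0, 0, 0, 0, 0, 0, 0, -1, -4, -7, -9]

/-- Increments at `b = 25`. -/
def lT25 : List ℤ := [10, 8, 6, 3, 1, 0, 0, 0, 0, 0, 0, 0, -3, -6, -8]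

/-- Increments at `b = 26`. -/
def lT26 : List ℤ := [10, 8, 6, 3, 1, 0, 0, 0, 0, 0, 0, 0, -1, -4, -7, -9]

/-- Increments at `b = 27`. -/
def lT27 : List ℤ := [10, 8, 6, 4, 1, 0, 0, 0, 0, 0, 0, 0, 0, -3, -6, -8, -10]

/-- Increments at `b = 28`. -/
def lT28 : List ℤ := [11, 9, 7, 5, 2, 0, 0, 0, 0, 0, 0, 0, 0, -1, -4, -7, -10]

/-- Increments at `b = 29`. -/
def lT29 : List ℤ := [11, 9, 7, 5, 2, 0, 0, 0, 0, 0, 0, 0, 0, 0, -3, -6, -8, -11]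

/-- Increments at `b = 30`. -/
def lT30 : List ℤ := [11, 9, 7, 5, 2, 0, 0, 0, 0, 0, 0, 0, 0, 0, -1, -4, -7, -10, -12]

/-- Increments at `b = 31`. -/
def lT31 : List ℤ := [12, 10, 8, 6, 3, 1, 0, 0, 0, 0, 0, 0, 0, 0, 0, -3, -6, -9, -11]

/-- Increments at `b = 32`. -/
def lT32 : List ℤ := [12, 10, 8, 6, 3, 1, 0, 0, 0, 0, 0, 0, 0, 0, 0, -1, -4, -7, -10, -12]

/-- Increments at `b = 33`. -/
def lT33 : List ℤ := [13, 11, 9, 7, 4, 2, 0, 0, 0, 0, 0, 0, 0, 0, 0, 0, -3, -6, -9, -11]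

/-- Increments at `b = 34`. -/
def lT34 : List ℤ := [13, 11, 9, 7, 4, 2, 0, 0, 0, 0, 0, 0, 0, 0, 0, 0, -1, -5, -8, -10, -12]

/-- Increments at `b = 35`. -/
def lT35 : List ℤ := [13, 11, 9, 7, 4, 2, 0, 0, 0, 0, 0, 0, 0, 0, 0, 0, 0, -3, -6, -9, -11, -14]

/-- Increments at `b = 36`. -/
def lT36 : List ℤ := [14, 12, 10, 8, 5, 3, 0, 0, 0, 0, 0, 0, 0, 0, 0, 0, 0, -2, -5, -8, -10, -13]

/-- Increments at `b = 37`. -/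
def lT37 : List ℤ := [14, 12, 10, 8, 5, 3, 0, 0, 0, 0, 0, 0, 0, 0, 0, 0, 0, 0, -3, -6, -9, -12, -14]

/-- Increments at `b = 38`. -/
def lT38 : List ℤ := [14, 12, 10, 8, 5, 3, 1, 0, 0, 0, 0, 0, 0, 0, 0, 0, 0, 0, -1, -5, -8, -10, -13, -15]

/-- Increments at `b = 39`. -/
def lT39 : List ℤ := [15, 13, 11, 9, 6, 4, 2, 0, 0, 0, 0, 0, 0, 0, 0, 0, 0, 0, 0, -3, -7, -9, -12, -14]

/-- Increments at `b = 40`. -/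
def lT40 : List ℤ := [15, 13, 11, 9, 6, 4, 2, 0, 0, 0, 0, 0, 0, 0, 0, 0, 0, 0, 0, -2, -5, -8, -11, -13, -15]

/-- Increments at `b = 41`. -/
def lT41 : List ℤ := [16, 14, 12, 10, 7, 5, 3, 0, 0, 0, 0, 0, 0, 0, 0, 0, 0, 0, 0, 0, -4, -7, -10, -12, -14]

/-- Increments at `b = 42`. -/
def lT42 : List ℤ := [16, 14, 12, 10, 8, 5, 3, 0, 0, 0, 0, 0, 0, 0, 0, 0, 0, 0, 0, 0, -2, -5, -8, -11, -13, -16]

/-- Increments at `b = 43`. -/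
def lT43 : List ℤ := [16, 14, 12, 10, 8, 5, 3, 0, 0, 0, 0, 0, 0, 0, 0, 0, 0, 0, 0, 0, 0, -4, -7, -10, -12, -15, -17]

/-- Increments at `b = 44`. -/
def lT44 : List ℤ := [17, 15, 13, 11, 9, 6, 4, 1, 0, 0, 0, 0, 0, 0, 0, 0, 0, 0, 0, 0, 0, -2, -5, -8, -11, -14, -16]

/-- Increments at `b = 45`. -/
def lT45 : List ℤ := [17, 15, 13, 11, 9, 6, 4, 1, 0, 0, 0, 0, 0, 0, 0, 0, 0, 0, 0, 0, 0, 0, -4, -7, -10, -12, -15, -17]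

/-- Increments at `b = 46`. -/
def lT46 : List ℤ := [17, 15, 13, 11, 9, 6, 4, 1, 0, 0, 0, 0, 0, 0, 0, 0, 0, 0, 0, 0, 0, 0, -2, -5, -8, -11, -14, -16, -18]

/-- Increments at `b = 47`. -/
def lT47 : List ℤ := [18, 16, 14, 12, 10, 7, 5, 2, 0, 0, 0, 0, 0, 0, 0, 0, 0, 0, 0, 0, 0, 0, 0, -4, -7, -10, -13, -15, -17]

/-- Increments at `b = 48`. -/
def lT48 : List ℤ := [18, 16, 14, 12, 10, 7, 5, 2, 0, 0, 0, 0, 0, 0, 0, 0, 0, 0, 0, 0, 0, 0, 0, -2, -6, -9, -11, -14, -16, -19]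

/-- Increments at `b = 49`. -/
def lT49 : List ℤ := [19, 17, 15, 13, 11, 8, 6, 3, 1, 0, 0, 0, 0, 0, 0, 0, 0, 0, 0, 0, 0, 0, 0, -1, -4, -7, -10, -13, -15, -18]

/-- Increments at `b = 50`. -/
def lT50 : List ℤ := [19, 17, 15, 13, 11, 8, 6, 3, 1, 0, 0, 0, 0, 0, 0, 0, 0, 0, 0, 0, 0, 0, 0, 0, -2, -6, -9, -12, -14, -17, -19]

/-- Increments at `b = 51`. -/
def lT51 : List ℤ := [19, 17, 15, 13, 11, 8, 6, 4, 1, 0, 0, 0, 0, 0, 0, 0, 0, 0, 0, 0, 0, 0, 0, 0, 0, -4, -7, -10, -13, -16, -18, -20]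

/-- Increments at `b = 52`. -/
def lT52 : List ℤ := [20, 18, 16, 14, 12, 9, 7, 5, 2, 0, 0, 0, 0, 0, 0, 0, 0, 0, 0, 0, 0, 0, 0, 0, 0, -3, -6, -9, -12, -14, -17, -19]

/-- Increments at `b = 53`. -/
def lT53 : List ℤ := [20, 18, 16, 14, 12, 9, 7, 5, 2, 0, 0, 0, 0, 0, 0, 0, 0, 0, 0, 0, 0, 0, 0, 0, 0, -1, -4, -7, -10, -13, -16, -18, -20]

/-- Increments at `b = 54`. -/
def lT54 : List ℤ := [20, 18, 16, 14, 12, 9, 7, 5, 2, 0, 0, 0, 0, 0, 0, 0, 0, 0, 0, 0, 0, 0, 0, 0, 0, 0, -2, -6, -9, -12, -14, -17, -19, -22]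

/-- Increments at `b = 55`. -/
def lT55 : List ℤ := [21, 19, 17, 15, 13, 10, 8, 6, 3, 1, 0, 0, 0, 0, 0, 0, 0, 0, 0, 0, 0, 0, 0, 0, 0, 0, -1, -4, -8, -11, -13, -16, -18, -21]

/-- Increments at `b = 56`. -/
def lT56 : List ℤ := [21, 19, 17, 15, 13, 10, 8, 6, 3, 1, 0, 0, 0, 0, 0, 0, 0, 0, 0, 0, 0, 0, 0, 0, 0, 0, 0, -3, -6, -9, -12, -15, -17, -20, -22]

/-- Increments at `b = 57`. -/
def lT57 : List ℤ := [22, 20, 18, 16, 14, 11, 9, 7, 4, 2, 0, 0, 0, 0, 0, 0, 0, 0, 0, 0, 0, 0, 0, 0, 0, 0, 0, -1, -5, -8, -11, -14, -16, -19, -21]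

/-- Increments at `b = 58`. -/
def lT58 : List ℤ := [22, 20, 18, 16, 14, 11, 9, 7, 4, 2, 0, 0, 0, 0, 0, 0, 0, 0, 0, 0, 0, 0, 0, 0, 0, 0, 0, 0, -3, -6, -9, -12, -15, -17, -20, -22]

/-- Increments at `b = 59`. -/
def lT59 : List ℤ := [22, 20, 18, 16, 14, 12, 9, 7, 4, 2, 0, 0, 0, 0, 0, 0, 0, 0, 0, 0, 0, 0, 0, 0, 0, 0, 0, 0, -1, -5, -8, -11, -14, -16, -19, -21, -23]

/-- Increments at `b = 60`. -/
def lT60 : List ℤ := [23, 21, 19, 17, 15, 13, 10, 8, 5, 3, 0, 0, 0, 0, 0, 0, 0, 0, 0, 0, 0, 0, 0, 0, 0, 0, 0, 0, 0, -3, -6, -10, -13, -15, -18, -20, -22]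

/-- Increments at `b = 61`. -/
def lT61 : List ℤ := [23, 21, 19, 17, 15, 13, 10, 8, 5, 3, 0, 0, 0, 0, 0, 0, 0, 0, 0, 0, 0, 0, 0, 0, 0, 0, 0, 0, 0, -1, -5, -8, -11, -14, -16, -19, -21, -24]

/-- Increments at `b = 62`. -/
def lT62 : List ℤ := [23, 21, 19, 17, 15, 13, 10, 8, 5, 3, 1, 0, 0, 0, 0, 0, 0, 0, 0, 0, 0, 0, 0, 0, 0, 0, 0, 0, 0, 0, -3, -6, -10, -12, -15, -18, -20, -23, -25]

/-- Increments at `b = 63`. -/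
def lT63 : List ℤ := [24, 22, 20, 18, 16, 14, 11, 9, 6, 4, 2, 0, 0, 0, 0, 0, 0, 0, 0, 0, 0, 0, 0, 0, 0, 0, 0, 0, 0, 0, -1, -5, -8, -11, -14, -17, -19, -22, -24]

/-- Increments at `b = 64`. -/
def lT64 : List ℤ := [24, 22, 20, 18, 16, 14, 11, 9, 7, 4, 2, 0, 0, 0, 0, 0, 0, 0, 0, 0, 0, 0, 0, 0, 0, 0, 0, 0, 0, 0, 0, -3, -7, -10, -13, -15, -18, -20, -23, -25]

/-- Increments at `b = 65`. -/
def lT65 : List ℤ := [25, 23, 21, 19, 17, 15, 12, 10, 8, 5, 3, 0, 0, 0, 0, 0, 0, 0, 0, 0, 0, 0, 0, 0, 0, 0, 0, 0, 0, 0, 0, -2, -5, -8, -12, -14, -17, -19, -22, -24]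

/-- Increments at `b = 66`. -/
def lT66 : List ℤ := [25, 23, 21, 19, 17, 15, 12, 10, 8, 5, 3, 0, 0, 0, 0, 0, 0, 0, 0, 0, 0, 0, 0, 0, 0, 0, 0, 0, 0, 0, 0, 0, -3, -7, -10, -13, -16, -18, -21, -23, -25]

/-- Increments at `b = 67`. -/
def lT67 : List ℤ := [25, 23, 21, 19, 17, 15, 12, 10, 8, 5, 3, 0, 0, 0, 0, 0, 0, 0, 0, 0, 0, 0, 0, 0, 0, 0, 0, 0, 0, 0, 0, 0, -1, -5, -8, -11, -14, -17, -20, -22, -24, -27]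

/-- Increments at `b = 68`. -/
def lT68 : List ℤ := [26, 24, 22, 20, 18, 16, 13, 11, 9, 6, 4, 1, 0, 0, 0, 0, 0, 0, 0, 0, 0, 0, 0, 0, 0, 0, 0, 0, 0, 0, 0, 0, 0, -4, -7, -10, -13, -16, -19, -21, -23, -26]

/-- Increments at `b = 69`. -/
def lT69 : List ℤ := [26, 24, 22, 20, 18, 16, 13, 11, 9, 6, 4, 1, 0, 0, 0, 0, 0, 0, 0, 0, 0, 0, 0, 0, 0, 0, 0, 0, 0, 0, 0, 0, 0, -2, -5, -9, -12, -14, -17, -20, -22, -25, -27]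

/-- Increments at `b = 70`. -/
def lT70 : List ℤ := [26, 24, 22, 20, 18, 16, 13, 11, 9, 6, 4, 1, 0, 0, 0, 0, 0, 0, 0, 0, 0, 0, 0, 0, 0, 0, 0, 0, 0, 0, 0, 0, 0, 0, -3, -7, -10, -13, -16, -19, -21, -23, -26, -28]

/-- Increments at `b = 71`. -/
def lT71 : List ℤ := [27, 25, 23, 21, 19, 17, 14, 12, 10, 7, 5, 2, 0, 0, 0, 0, 0, 0, 0, 0, 0, 0, 0, 0, 0, 0, 0, 0, 0, 0, 0, 0, 0, 0, -2, -5, -9, -12, -15, -17, -20, -22, -25, -27]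

/-- Increments at `b = 72`. -/
def lT72 : List ℤ := [27, 25, 23, 21, 19, 17, 14, 12, 10, 7, 5, 2, 0, 0, 0, 0, 0, 0, 0, 0, 0, 0, 0, 0, 0, 0, 0, 0, 0, 0, 0, 0, 0, 0, 0, -4, -7, -10, -13, -16, -19, -21, -24, -26, -28]

/-- Increments at `b = 73`. -/
def lT73 : List ℤ := [28, 26, 24, 22, 20, 18, 15, 13, 11, 8, 6, 3, 1, 0, 0, 0, 0, 0, 0, 0, 0, 0, 0, 0, 0, 0, 0, 0, 0, 0, 0, 0, 0, 0, 0, -2, -6, -9, -12, -15, -18, -20, -23, -25, -27]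

/-- Increments at `b = 74`. -/
def lT74 : List ℤ := [28, 26, 24, 22, 20, 18, 15, 13, 11, 8, 6, 4, 1, 0, 0, 0, 0, 0, 0, 0, 0, 0, 0, 0, 0, 0, 0, 0, 0, 0, 0, 0, 0, 0, 0, 0, -4, -7, -11, -14, -16, -19, -22, -24, -26, -29]

/-- Increments at `b = 75`. -/
def lT75 : List ℤ := [28, 26, 24, 22, 20, 18, 15, 13, 11, 8, 6, 4, 1, 0, 0, 0, 0, 0, 0, 0, 0, 0, 0, 0, 0, 0, 0, 0, 0, 0, 0, 0, 0, 0, 0, 0, -2, -6, -9, -12, -15, -18, -20, -23, -25, -27, -30]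

/-- Increments at `b = 76`. -/
def lT76 : List ℤ := [29, 27, 25, 23, 21, 19, 16, 14, 12, 9, 7, 5, 2, 0, 0, 0, 0, 0, 0, 0, 0, 0, 0, 0, 0, 0, 0, 0, 0, 0, 0, 0, 0, 0, 0, 0, 0, -4, -8, -11, -14, -17, -19, -22, -24, -27, -29]

/-- Increments at `b = 77`. -/
def lT77 : List ℤ := [29, 27, 25, 23, 21, 19, 16, 14, 12, 9, 7, 5, 2, 0, 0, 0, 0, 0, 0, 0, 0, 0, 0, 0, 0, 0, 0, 0, 0, 0, 0, 0, 0, 0, 0, 0, 0, -2, -6, -9, -12, -15, -18, -21, -23, -25, -28, -30]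

/-- Increments at `b = 78`. -/
def lT78 : List ℤ := [29, 27, 25, 23, 21, 19, 16, 14, 12, 10, 7, 5, 2, 0, 0, 0, 0, 0, 0, 0, 0, 0, 0, 0, 0, 0, 0, 0, 0, 0, 0, 0, 0, 0, 0, 0, 0, 0, -4, -7, -11, -14, -17, -19, -22, -24, -27, -29, -31]

/-- Increments at `b = 79`. -/
def lT79 : List ℤ := [30, 28, 26, 24, 22, 20, 17, 15, 13, 11, 8, 6, 3, 1, 0, 0, 0, 0, 0, 0, 0, 0, 0, 0, 0, 0, 0, 0, 0, 0, 0, 0, 0, 0, 0, 0, 0, 0, -2, -6, -9, -12, -15, -18, -21, -23, -26, -28, -30]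

/-- Increments at `b = 80`. -/
def lT80 : List ℤ := [30, 28, 26, 24, 22, 20, 18, 15, 13, 11, 8, 6, 3, 1, 0, 0, 0, 0, 0, 0, 0, 0, 0, 0, 0, 0, 0, 0, 0, 0, 0, 0, 0, 0, 0, 0, 0, 0, -1, -4, -8, -11, -14, -17, -19, -22, -25, -27, -29, -31]

/-- Increments at `b = 81`. -/
def lT81 : List ℤ := [31, 29, 27, 25, 23, 21, 19, 16, 14, 12, 9, 7, 4, 2, 0, 0, 0, 0, 0, 0, 0, 0, 0, 0, 0, 0, 0, 0, 0, 0, 0, 0, 0, 0, 0, 0, 0, 0, 0, -3, -6, -10, -13, -16, -18, -21, -24, -26, -28, -31]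

/-- Increments at `b = 82`. -/
def lT82 : List ℤ := [31, 29, 27, 25, 23, 21, 19, 16, 14, 12, 9, 7, 4, 2, 0, 0, 0, 0, 0, 0, 0, 0, 0, 0, 0, 0, 0, 0, 0, 0, 0, 0, 0, 0, 0, 0, 0, 0, 0, -1, -4, -8, -11, -14, -17, -20, -22, -25, -27, -30, -32]

/-- Increments at `b = 83`. -/
def lT83 : List ℤ := [31, 29, 27, 25, 23, 21, 19, 16, 14, 12, 9, 7, 4, 2, 0, 0, 0, 0, 0, 0, 0, 0, 0, 0, 0, 0, 0, 0, 0, 0, 0, 0, 0, 0, 0, 0, 0, 0, 0, 0, -3, -6, -9, -13, -16, -18, -21, -24, -26, -28, -31, -33]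

/-- Increments at `b = 84`. -/
def lT84 : List ℤ := [32, 30, 28, 26, 24, 22, 20, 17, 15, 13, 10, 8, 5, 3, 0, 0, 0, 0, 0, 0, 0, 0, 0, 0, 0, 0, 0, 0, 0, 0, 0, 0, 0, 0, 0, 0, 0, 0, 0, 0, -1, -5, -8, -11, -14, -17, -20, -23, -25, -27, -30, -32]

/-- Increments at `b = 85`. -/
def lT85 : List ℤ := [32, 30, 28, 26, 24, 22, 20, 17, 15, 13, 10, 8, 5, 3, 1, 0, 0, 0, 0, 0, 0, 0, 0, 0, 0, 0, 0, 0, 0, 0, 0, 0, 0, 0, 0, 0, 0, 0, 0, 0, 0, -3, -6, -10, -13, -16, -19, -21, -24, -26, -29, -31, -33]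

/-- Increments at `b = 86`. -/
def lT86 : List ℤ := [32, 30, 28, 26, 24, 22, 20, 17, 15, 13, 10, 8, 5, 3, 1, 0, 0, 0, 0, 0, 0, 0, 0, 0, 0, 0, 0, 0, 0, 0, 0, 0, 0, 0, 0, 0, 0, 0, 0, 0, 0, -1, -5, -8, -11, -14, -17, -20, -23, -25, -28, -30, -32, -34]

/-- Increments at `b = 87`. -/
def lT87 : List ℤ := [33, 31, 29, 27, 25, 23, 21, 18, 16, 14, 11, 9, 6, 4, 2, 0, 0, 0, 0, 0, 0, 0, 0, 0, 0, 0, 0, 0, 0, 0, 0, 0, 0, 0, 0, 0, 0, 0, 0, 0, 0, 0, -3, -7, -10, -13, -16, -19, -21, -24, -27, -29, -31, -33]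

/-- Increments at `b = 88`. -/
def lT88 : List ℤ := [33, 31, 29, 27, 25, 23, 21, 18, 16, 14, 11, 9, 7, 4, 2, 0, 0, 0, 0, 0, 0, 0, 0, 0, 0, 0, 0, 0, 0, 0, 0, 0, 0, 0, 0, 0, 0, 0, 0, 0, 0, 0, -1, -5, -8, -11, -14, -17, -20, -23, -25, -28, -30, -32, -35]

/-- Increments at `b = 89`. -/
def lT89 : List ℤ := [34, 32, 30, 28, 26, 24, 22, 19, 17, 15, 12, 10, 8, 5, 3, 0, 0, 0, 0, 0, 0, 0, 0, 0, 0, 0, 0, 0, 0, 0, 0, 0, 0, 0, 0, 0, 0, 0, 0, 0, 0, 0, 0, -3, -7, -10, -13, -16, -19, -22, -24, -27, -29, -32, -34]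

/-- Increments at `b = 90`. -/
def lT90 : List ℤ := [34, 32, 30, 28, 26, 24, 22, 19, 17, 15, 12, 10, 8, 5, 3, 0, 0, 0, 0, 0, 0, 0, 0, 0, 0, 0, 0, 0, 0, 0, 0, 0, 0, 0, 0, 0, 0, 0, 0, 0, 0, 0, 0, -1, -5, -8, -12, -15, -18, -20, -23, -26, -28, -30, -33, -35]

/-- Increments at `b = 91`. -/
def lT91 : List ℤ := [34, 32, 30, 28, 26, 24, 22, 19, 17, 15, 12, 10, 8, 5, 3, 0, 0, 0, 0, 0, 0, 0, 0, 0, 0, 0, 0, 0, 0, 0, 0, 0, 0, 0, 0, 0, 0, 0, 0, 0, 0, 0, 0, 0, -3, -7, -10, -13, -16, -19, -22, -24, -27, -29, -32, -34, -36]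

/-- Increments at `b = 92`. -/
def lT92 : List ℤ := [35, 33, 31, 29, 27, 25, 23, 20, 18, 16, 13, 11, 9, 6, 4, 1, 0, 0, 0, 0, 0, 0, 0, 0, 0, 0, 0, 0, 0, 0, 0, 0, 0, 0, 0, 0, 0, 0, 0, 0, 0, 0, 0, 0, -1, -5, -9, -12, -15, -18, -21, -23, -26, -28, -31, -33, -35]

/-- Increments at `b = 93`. -/
def lT93 : List ℤ := [35, 33, 31, 29, 27, 25, 23, 20, 18, 16, 13, 11, 9, 6, 4, 1, 0, 0, 0, 0, 0, 0, 0, 0, 0, 0, 0, 0, 0, 0, 0, 0, 0, 0, 0, 0, 0, 0, 0, 0, 0, 0, 0, 0, 0, -3, -7, -10, -13, -16, -19, -22, -25, -27, -30, -32, -34, -36]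

/-- Increments at `b = 94`. -/
def lT94 : List ℤ := [35, 33, 31, 29, 27, 25, 23, 20, 18, 16, 13, 11, 9, 6, 4, 1, 0, 0, 0, 0, 0, 0, 0, 0, 0, 0, 0, 0, 0, 0, 0, 0, 0, 0, 0, 0, 0, 0, 0, 0, 0, 0, 0, 0, 0, -1, -5, -8, -12, -15, -18, -21, -23, -26, -28, -31, -33, -35, -38]

/-- Increments at `b = 95`. -/
def lT95 : List ℤ := [36, 34, 32, 30, 28, 26, 24, 21, 19, 17, 14, 12, 10, 7, 5, 2, 0, 0, 0, 0, 0, 0, 0, 0, 0, 0, 0, 0, 0, 0, 0, 0, 0, 0, 0, 0, 0, 0, 0, 0, 0, 0, 0, 0, 0, 0, -3, -7, -10, -14, -17, -19, -22, -25, -27, -30, -32, -34, -37]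

/-- Increments at `b = 96`. -/
def lT96 : List ℤ := [36, 34, 32, 30, 28, 26, 24, 21, 19, 17, 15, 12, 10, 7, 5, 2, 0, 0, 0, 0, 0, 0, 0, 0, 0, 0, 0, 0, 0, 0, 0, 0, 0, 0, 0, 0, 0, 0, 0, 0, 0, 0, 0, 0, 0, 0, -2, -5, -9, -12, -15, -18, -21, -24, -26, -29, -31, -33, -36, -38]

/-- Increments at `b = 97`. -/
def lT97 : List ℤ := [37, 35, 33, 31, 29, 27, 25, 22, 20, 18, 16, 13, 11, 8, 6, 3, 1, 0, 0, 0, 0, 0, 0, 0, 0, 0, 0, 0, 0, 0, 0, 0, 0, 0, 0, 0, 0, 0, 0, 0, 0, 0, 0, 0, 0, 0, 0, -4, -7, -11, -14, -17, -20, -22, -25, -28, -30, -32, -35, -37]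

/-- Increments at `b = 98`. -/
def lT98 : List ℤ := [37, 35, 33, 31, 29, 27, 25, 22, 20, 18, 16, 13, 11, 8, 6, 4, 1, 0, 0, 0, 0, 0, 0, 0, 0, 0, 0, 0, 0, 0, 0, 0, 0, 0, 0, 0, 0, 0, 0, 0, 0, 0, 0, 0, 0, 0, 0, -2, -5, -9, -12, -15, -18, -21, -24, -26, -29, -31, -34, -36, -38]

/-- Increments at `b = 99`. -/
def lT99 : List ℤ := [37, 35, 33, 31, 29, 27, 25, 22, 20, 18, 16, 13, 11, 8, 6, 4, 1, 0, 0, 0, 0, 0, 0, 0, 0, 0, 0, 0, 0, 0, 0, 0, 0, 0, 0, 0, 0, 0, 0, 0, 0, 0, 0, 0, 0, 0, 0, 0, -4, -7, -10, -14, -17, -20, -22, -25, -28, -30, -33, -35, -37, -39]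

/-- Increments at `b = 100`. -/
def lT100 : List ℤ := [38, 36, 34, 32, 30, 28, 26, 23, 21, 19, 17, 14, 12, 9, 7, 5, 2, 0, 0, 0, 0, 0, 0, 0, 0, 0, 0, 0, 0, 0, 0, 0, 0, 0, 0, 0, 0, 0, 0, 0, 0, 0, 0, 0, 0, 0, 0, 0, -2, -6, -9, -12, -15, -18, -21, -24, -27, -29, -32, -34, -36, -38]

/-- Increments at `b = 101`. -/
def lT101 : List ℤ := [38, 36, 34, 32, 30, 28, 26, 23, 21, 19, 17, 14, 12, 10, 7, 5, 2, 0, 0, 0, 0, 0, 0, 0, 0, 0, 0, 0, 0, 0, 0, 0, 0, 0, 0, 0, 0, 0, 0, 0, 0, 0, 0, 0, 0, 0, 0, 0, 0, -4, -7, -11, -14, -17, -20, -23, -25, -28, -30, -33, -35, -37, -40]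

/-- Increments at `b = 102`. -/
def lT102 : List ℤ := [38, 36, 34, 32, 30, 28, 26, 23, 21, 19, 17, 14, 12, 10, 7, 5, 2, 0, 0, 0, 0, 0, 0, 0, 0, 0, 0, 0, 0, 0, 0, 0, 0, 0, 0, 0, 0, 0, 0, 0, 0, 0, 0, 0, 0, 0, 0, 0, 0, -2, -6, -9, -12, -15, -18, -21, -24, -27, -29, -32, -34, -36, -39, -41]

/-- Increments at `b = 103`. -/
def lT103 : List ℤ := [39, 37, 35, 33, 31, 29, 27, 24, 22, 20, 18, 15, 13, 11, 8, 6, 3, 1, 0, 0, 0, 0, 0, 0, 0, 0, 0, 0, 0, 0, 0, 0, 0, 0, 0, 0, 0, 0, 0, 0, 0, 0, 0, 0, 0, 0, 0, 0, 0, 0, -4, -8, -11, -14, -17, -20, -23, -26, -28, -31, -33, -35, -38, -40]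

/-- Increments at `b = 104`. -/
def lT104 : List ℤ := [39, 37, 35, 33, 31, 29, 27, 25, 22, 20, 18, 15, 13, 11, 8, 6, 3, 1, 0, 0, 0, 0, 0, 0, 0, 0, 0, 0, 0, 0, 0, 0, 0, 0, 0, 0, 0, 0, 0, 0, 0, 0, 0, 0, 0, 0, 0, 0, 0, 0, -2, -6, -9, -12, -16, -19, -21, -24, -27, -29, -32, -34, -37, -39, -41]

/-- Increments at `b = 105`. -/
def lT105 : List ℤ := [40, 38, 36, 34, 32, 30, 28, 26, 23, 21, 19, 16, 14, 12, 9, 7, 4, 2, 0, 0, 0, 0, 0, 0, 0, 0, 0, 0, 0, 0, 0, 0, 0, 0, 0, 0, 0, 0, 0, 0, 0, 0, 0, 0, 0, 0, 0, 0, 0, 0, -1, -4, -8, -11, -14, -17, -20, -23, -26, -28, -31, -33, -36, -38, -40]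

/-- Increments at `b = 106`. -/
def lT106 : List ℤ := [40, 38, 36, 34, 32, 30, 28, 26, 23, 21, 19, 16, 14, 12, 9, 7, 4, 2, 0, 0, 0, 0, 0, 0, 0, 0, 0, 0, 0, 0, 0, 0, 0, 0, 0, 0, 0, 0, 0, 0, 0, 0, 0, 0, 0, 0, 0, 0, 0, 0, 0, -2, -6, -9, -13, -16, -19, -22, -24, -27, -30, -32, -35, -37, -39, -41]

/-- Increments at `b = 107`. -/
def lT107 : List ℤ := [40, 38, 36, 34, 32, 30, 28, 26, 23, 21, 19, 16, 14, 12, 9, 7, 4, 2, 0, 0, 0, 0, 0, 0, 0, 0, 0, 0, 0, 0, 0, 0, 0, 0, 0, 0, 0, 0, 0, 0, 0, 0, 0, 0, 0, 0, 0, 0, 0, 0, 0, 0, -4, -8, -11, -14, -17, -20, -23, -26, -28, -31, -33, -36, -38, -40, -43]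

/-- Increments at `b = 108`. -/
def lT108 : List ℤ := [41, 39, 37, 35, 33, 31, 29, 27, 24, 22, 20, 17, 15, 13, 10, 8, 5, 3, 0, 0, 0, 0, 0, 0, 0, 0, 0, 0, 0, 0, 0, 0, 0, 0, 0, 0, 0, 0, 0, 0, 0, 0, 0, 0, 0, 0, 0, 0, 0, 0, 0, 0, -3, -6, -10, -13, -16, -19, -22, -25, -27, -30, -32, -35, -37, -39, -42]

/-- Increments at `b = 109`. -/
def lT109 : List ℤ := [41, 39, 37, 35, 33, 31, 29, 27, 24, 22, 20, 17, 15, 13, 10, 8, 5, 3, 1, 0, 0, 0, 0, 0, 0, 0, 0, 0, 0, 0, 0, 0, 0, 0, 0, 0, 0, 0, 0, 0, 0, 0, 0, 0, 0, 0, 0, 0, 0, 0, 0, 0, -1, -4, -8, -11, -14, -17, -20, -23, -26, -29, -31, -34, -36, -38, -41, -43]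

/-- Increments at `b = 110`. -/
def lT110 : List ℤ := [41, 39, 37, 35, 33, 31, 29, 27, 24, 22, 20, 17, 15, 13, 10, 8, 6, 3, 1, 0, 0, 0, 0, 0, 0, 0, 0, 0, 0, 0, 0, 0, 0, 0, 0, 0, 0, 0, 0, 0, 0, 0, 0, 0, 0, 0, 0, 0, 0, 0, 0, 0, 0, -2, -6, -10, -13, -16, -19, -22, -25, -27, -30, -32, -35, -37, -40, -42, -44]

/-- Increments at `b = 111`. -/
def lT111 : List ℤ := [42, 40, 38, 36, 34, 32, 30, 28, 25, 23, 21, 18, 16, 14, 11, 9, 7, 4, 2, 0, 0, 0, 0, 0, 0, 0, 0, 0, 0, 0, 0, 0, 0, 0, 0, 0, 0, 0, 0, 0, 0, 0, 0, 0, 0, 0, 0, 0, 0, 0, 0, 0, 0, -1, -5, -8, -11, -15, -18, -21, -23, -26, -29, -31, -34, -36, -39, -41, -43]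

/-- Increments at `b = 112`. -/
def lT112 : List ℤ := [42, 40, 38, 36, 34, 32, 30, 28, 25, 23, 21, 18, 16, 14, 11, 9, 7, 4, 2, 0, 0, 0, 0, 0, 0, 0, 0, 0, 0, 0, 0, 0, 0, 0, 0, 0, 0, 0, 0, 0, 0, 0, 0, 0, 0, 0, 0, 0, 0, 0, 0, 0, 0, 0, -3, -6, -10, -13, -16, -19, -22, -25, -28, -30, -33, -35, -38, -40, -42, -44]

/-- Increments at `b = 113`. -/
def lT113 : List ℤ := [43, 41, 39, 37, 35, 33, 31, 29, 26, 24, 22, 19, 17, 15, 12, 10, 8, 5, 3, 0, 0, 0, 0, 0, 0, 0, 0, 0, 0, 0, 0, 0, 0, 0, 0, 0, 0, 0, 0, 0, 0, 0, 0, 0, 0, 0, 0, 0, 0, 0, 0, 0, 0, 0, -1, -5, -8, -12, -15, -18, -21, -24, -26, -29, -32, -34, -37, -39, -41, -43]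

/-- Increments at `b = 114`. -/
def lT114 : List ℤ := [43, 41, 39, 37, 35, 33, 31, 29, 26, 24, 22, 20, 17, 15, 12, 10, 8, 5, 3, 0, 0, 0, 0, 0, 0, 0, 0, 0, 0, 0, 0, 0, 0, 0, 0, 0, 0, 0, 0, 0, 0, 0, 0, 0, 0, 0, 0, 0, 0, 0, 0, 0, 0, 0, 0, -3, -6, -10, -13, -16, -19, -22, -25, -28, -30, -33, -35, -38, -40, -42, -45]

/-- Increments at `b = 115`. -/
def lT115 : List ℤ := [43, 41, 39, 37, 35, 33, 31, 29, 26, 24, 22, 20, 17, 15, 12, 10, 8, 5, 3, 0, 0, 0, 0, 0, 0, 0, 0, 0, 0, 0, 0, 0, 0, 0, 0, 0, 0, 0, 0, 0, 0, 0, 0, 0, 0, 0, 0, 0, 0, 0, 0, 0, 0, 0, 0, -1, -5, -8, -12, -15, -18, -21, -24, -26, -29, -32, -34, -37, -39, -41, -44, -46]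

/-- Increments at `b = 116`. -/
def lT116 : List ℤ := [44, 42, 40, 38, 36, 34, 32, 30, 27, 25, 23, 21, 18, 16, 13, 11, 9, 6, 4, 1, 0, 0, 0, 0, 0, 0, 0, 0, 0, 0, 0, 0, 0, 0, 0, 0, 0, 0, 0, 0, 0, 0, 0, 0, 0, 0, 0, 0, 0, 0, 0, 0, 0, 0, 0, 0, -3, -7, -10, -13, -17, -20, -22, -25, -28, -31, -33, -36, -38, -40, -43, -45]

/-- Increments at `b = 117`. -/
def lT117 : List ℤ := [44, 42, 40, 38, 36, 34, 32, 30, 27, 25, 23, 21, 18, 16, 14, 11, 9, 6, 4, 1, 0, 0, 0, 0, 0, 0, 0, 0, 0, 0, 0, 0, 0, 0, 0, 0, 0, 0, 0, 0, 0, 0, 0, 0, 0, 0, 0, 0, 0, 0, 0, 0, 0, 0, 0, 0, -1, -5, -8, -12, -15, -18, -21, -24, -27, -29, -32, -34, -37, -39, -42, -44, -46]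

/-- Increments at `b = 118`. -/
def lT118 : List ℤ := [44, 42, 40, 38, 36, 34, 32, 30, 27, 25, 23, 21, 18, 16, 14, 11, 9, 6, 4, 1, 0, 0, 0, 0, 0, 0, 0, 0, 0, 0, 0, 0, 0, 0, 0, 0, 0, 0, 0, 0, 0, 0, 0, 0, 0, 0, 0, 0, 0, 0, 0, 0, 0, 0, 0, 0, 0, -3, -7, -10, -13, -16, -20, -22, -25, -28, -31, -33, -36, -38, -40, -43, -45, -47]

/-- Increments at `b = 119`. -/
def lT119 : List ℤ := [45, 43, 41, 39, 37, 35, 33, 31, 28, 26, 24, 22, 19, 17, 15, 12, 10, 7, 5, 2, 0, 0, 0, 0, 0, 0, 0, 0, 0, 0, 0, 0, 0, 0, 0, 0, 0, 0, 0, 0, 0, 0, 0, 0, 0, 0, 0, 0, 0, 0, 0, 0, 0, 0, 0, 0, 0, -1, -5, -9, -12, -15, -18, -21, -24, -27, -30, -32, -35, -37, -40, -42, -44, -46]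

/-- Increments at `b = 120`. -/
def lT120 : List ℤ := [45, 43, 41, 39, 37, 35, 33, 31, 28, 26, 24, 22, 19, 17, 15, 12, 10, 7, 5, 3, 0, 0, 0, 0, 0, 0, 0, 0, 0, 0, 0, 0, 0, 0, 0, 0, 0, 0, 0, 0, 0, 0, 0, 0, 0, 0, 0, 0, 0, 0, 0, 0, 0, 0, 0, 0, 0, 0, -3, -7, -10, -14, -17, -20, -23, -25, -28, -31, -33, -36, -38, -41, -43, -45, -48]

/-- Increments at `b = 121`. -/
def lT121 : List ℤ := [46, 44, 42, 40, 38, 36, 34, 32, 29, 27, 25, 23, 20, 18, 16, 13, 11, 8, 6, 4, 1, 0, 0, 0, 0, 0, 0, 0, 0, 0, 0, 0, 0, 0, 0, 0, 0, 0, 0, 0, 0, 0, 0, 0, 0, 0, 0, 0, 0, 0, 0, 0, 0, 0, 0, 0, 0, 0, -2, -5, -9, -12, -15, -18, -21, -24, -27, -30, -32, -35, -37, -40, -42, -44, -47]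

/-- Increments at `b = 122`. -/
def lT122 : List ℤ := [46, 44, 42, 40, 38, 36, 34, 32, 29, 27, 25, 23, 20, 18, 16, 13, 11, 8, 6, 4, 1, 0, 0, 0, 0, 0, 0, 0, 0, 0, 0, 0, 0, 0, 0, 0, 0, 0, 0, 0, 0, 0, 0, 0, 0, 0, 0, 0, 0, 0, 0, 0, 0, 0, 0, 0, 0, 0, 0, -3, -7, -10, -14, -17, -20, -23, -26, -28, -31, -34, -36, -39, -41, -43, -46, -48]

/-- Increments at `b = 123`. -/
def lT123 : List ℤ := [46, 44, 42, 40, 38, 36, 34, 32, 29, 27, 25, 23, 20, 18, 16, 13, 11, 9, 6, 4, 1, 0, 0, 0, 0, 0, 0, 0, 0, 0, 0, 0, 0, 0, 0, 0, 0, 0, 0, 0, 0, 0, 0, 0, 0, 0, 0, 0, 0, 0, 0, 0, 0, 0, 0, 0, 0, 0, 0, -1, -5, -9, -12, -15, -18, -21, -24, -27, -30, -32, -35, -37, -40, -42, -45, -47, -49]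

/-- Increments at `b = 124`. -/
def lT124 : List ℤ := [47, 45, 43, 41, 39, 37, 35, 33, 30, 28, 26, 24, 21, 19, 17, 14, 12, 10, 7, 5, 2, 0, 0, 0, 0, 0, 0, 0, 0, 0, 0, 0, 0, 0, 0, 0, 0, 0, 0, 0, 0, 0, 0, 0, 0, 0, 0, 0, 0, 0, 0, 0, 0, 0, 0, 0, 0, 0, 0, 0, -4, -7, -11, -14, -17, -20, -23, -26, -29, -31, -34, -36, -39, -41, -44, -46, -48]

/-- Increments at `b = 125`. -/
def lT125 : List ℤ := [47, 45, 43, 41, 39, 37, 35, 33, 30, 28, 26, 24, 21, 19, 17, 14, 12, 10, 7, 5, 2, 0, 0, 0, 0, 0, 0, 0, 0, 0, 0, 0, 0, 0, 0, 0, 0, 0, 0, 0, 0, 0, 0, 0, 0, 0, 0, 0, 0, 0, 0, 0, 0, 0, 0, 0, 0, 0, 0, 0, -2, -5, -9, -12, -15, -19, -22, -25, -27, -30, -33, -35, -38, -40, -42, -45, -47, -49]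

/-- Increments at `b = 126`. -/
def lT126 : List ℤ := [47, 45, 43, 41, 39, 37, 35, 33, 30, 28, 26, 24, 21, 19, 17, 14, 12, 10, 7, 5, 2, 0, 0, 0, 0, 0, 0, 0, 0, 0, 0, 0, 0, 0, 0, 0, 0, 0, 0, 0, 0, 0, 0, 0, 0, 0, 0, 0, 0, 0, 0, 0, 0, 0, 0, 0, 0, 0, 0, 0, 0, -3, -7, -11, -14, -17, -20, -23, -26, -29, -31, -34, -37, -39, -41, -44, -46, -48, -50]

/-- Increments at `b = 127`. -/
def lT127 : List ℤ := [48, 46, 44, 42, 40, 38, 36, 34, 31, 29, 27, 25, 22, 20, 18, 15, 13, 11, 8, 6, 3, 1, 0, 0, 0, 0, 0, 0, 0, 0, 0, 0, 0, 0, 0, 0, 0, 0, 0, 0, 0, 0, 0, 0, 0, 0, 0, 0, 0, 0, 0, 0, 0, 0, 0, 0, 0, 0, 0, 0, 0, -2, -6, -9, -12, -16, -19, -22, -25, -28, -30, -33, -35, -38, -40, -43, -45, -47, -50]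

/-- Increments at `b = 128`. -/
def lT128 : List ℤ := [48, 46, 44, 42, 40, 38, 36, 34, 31, 29, 27, 25, 22, 20, 18, 15, 13, 11, 8, 6, 3, 1, 0, 0, 0, 0, 0, 0, 0, 0, 0, 0, 0, 0, 0, 0, 0, 0, 0, 0, 0, 0, 0, 0, 0, 0, 0, 0, 0, 0, 0, 0, 0, 0, 0, 0, 0, 0, 0, 0, 0, 0, -4, -7, -11, -14, -17, -20, -23, -26, -29, -32, -34, -37, -39, -42, -44, -46, -49, -51]

/-- Increments at `b = 129`. -/
def lT129 : List ℤ := [49, 47, 45, 43, 41, 39, 37, 35, 32, 30, 28, 26, 23, 21, 19, 16, 14, 12, 9, 7, 4, 2, 0, 0, 0, 0, 0, 0, 0, 0, 0, 0, 0, 0, 0, 0, 0, 0, 0, 0, 0, 0, 0, 0, 0, 0, 0, 0, 0, 0, 0, 0, 0, 0, 0, 0, 0, 0, 0, 0, 0, 0, -2, -6, -9, -13, -16, -19, -22, -25, -28, -30, -33, -36, -38, -41, -43, -45, -48, -50]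

/-- Increments at `b = 130`. -/
def lT130 : List ℤ := [49, 47, 45, 43, 41, 39, 37, 35, 32, 30, 28, 26, 23, 21, 19, 16, 14, 12, 9, 7, 4, 2, 0, 0, 0, 0, 0, 0, 0, 0, 0, 0, 0, 0, 0, 0, 0, 0, 0, 0, 0, 0, 0, 0, 0, 0, 0, 0, 0, 0, 0, 0, 0, 0, 0, 0, 0, 0, 0, 0, 0, 0, 0, -4, -7, -11, -14, -17, -21, -23, -26, -29, -32, -34, -37, -39, -42, -44, -47, -49, -51]

/-- Increments at `b = 131`. -/
def lT131 : List ℤ := [49, 47, 45, 43, 41, 39, 37, 35, 33, 30, 28, 26, 23, 21, 19, 16, 14, 12, 9, 7, 4, 2, 0, 0, 0, 0, 0, 0, 0, 0, 0, 0, 0, 0, 0, 0, 0, 0, 0, 0, 0, 0, 0, 0, 0, 0, 0, 0, 0, 0, 0, 0, 0, 0, 0, 0, 0, 0, 0, 0, 0, 0, 0, -2, -6, -9, -13, -16, -19, -22, -25, -28, -30, -33, -36, -38, -41, -43, -45, -48, -50, -52]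

/-- Increments at `b = 132`. -/
def lT132 : List ℤ := [50, 48, 46, 44, 42, 40, 38, 36, 34, 31, 29, 27, 24, 22, 20, 17, 15, 13, 10, 8, 5, 3, 1, 0, 0, 0, 0, 0, 0, 0, 0, 0, 0, 0, 0, 0, 0, 0, 0, 0, 0, 0, 0, 0, 0, 0, 0, 0, 0, 0, 0, 0, 0, 0, 0, 0, 0, 0, 0, 0, 0, 0, 0, 0, -4, -8, -11, -14, -18, -21, -24, -27, -29, -32, -35, -37, -40, -42, -45, -47, -49, -51]

/-- Increments at `b = 133`. -/
def lT133 : List ℤ := [50, 48, 46, 44, 42, 40, 38, 36, 34, 31, 29, 27, 24, 22, 20, 18, 15, 13, 10, 8, 6, 3, 1, 0, 0, 0, 0, 0, 0, 0, 0, 0, 0, 0, 0, 0, 0, 0, 0, 0, 0, 0, 0, 0, 0, 0, 0, 0, 0, 0, 0, 0, 0, 0, 0, 0, 0, 0, 0, 0, 0, 0, 0, 0, -2, -6, -9, -13, -16, -19, -22, -25, -28, -31, -33, -36, -39, -41, -43, -46, -48, -50, -52]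

/-- Increments at `b = 134`. -/
def lT134 : List ℤ := [50, 48, 46, 44, 42, 40, 38, 36, 34, 31, 29, 27, 25, 22, 20, 18, 15, 13, 10, 8, 6, 3, 1, 0, 0, 0, 0, 0, 0, 0, 0, 0, 0, 0, 0, 0, 0, 0, 0, 0, 0, 0, 0, 0, 0, 0, 0, 0, 0, 0, 0, 0, 0, 0, 0, 0, 0, 0, 0, 0, 0, 0, 0, 0, 0, -4, -8, -11, -14, -18, -21, -24, -27, -29, -32, -35, -37, -40, -42, -45, -47, -49, -51, -54]

/-- Increments at `b = 135`. -/
def lT135 : List ℤ := [51, 49, 47, 45, 43, 41, 39, 37, 35, 32, 30, 28, 26, 23, 21, 19, 16, 14, 11, 9, 7, 4, 2, 0, 0, 0, 0, 0, 0, 0, 0, 0, 0, 0, 0, 0, 0, 0, 0, 0, 0, 0, 0, 0, 0, 0, 0, 0, 0, 0, 0, 0, 0, 0, 0, 0, 0, 0, 0, 0, 0, 0, 0, 0, 0, -2, -6, -10, -13, -16, -19, -22, -25, -28, -31, -34, -36, -39, -41, -44, -46, -48, -51, -53]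

/-- Increments at `b = 136`. -/
def lT136 : List ℤ := [51, 49, 47, 45, 43, 41, 39, 37, 35, 32, 30, 28, 26, 23, 21, 19, 16, 14, 11, 9, 7, 4, 2, 0, 0, 0, 0, 0, 0, 0, 0, 0, 0, 0, 0, 0, 0, 0, 0, 0, 0, 0, 0, 0, 0, 0, 0, 0, 0, 0, 0, 0, 0, 0, 0, 0, 0, 0, 0, 0, 0, 0, 0, 0, 0, 0, -4, -8, -11, -15, -18, -21, -24, -27, -30, -32, -35, -38, -40, -42, -45, -47, -50, -52, -54]

/-- Increments at `b = 137`. -/
def lT137 : List ℤ := [52, 50, 48, 46, 44, 42, 40, 38, 36, 33, 31, 29, 27, 24, 22, 20, 17, 15, 12, 10, 8, 5, 3, 0, 0, 0, 0, 0, 0, 0, 0, 0, 0, 0, 0, 0, 0, 0, 0, 0, 0, 0, 0, 0, 0, 0, 0, 0, 0, 0, 0, 0, 0, 0, 0, 0, 0, 0, 0, 0, 0, 0, 0, 0, 0, 0, -3, -6, -10, -13, -16, -20, -23, -26, -28, -31, -34, -36, -39, -41, -44, -46, -49, -51, -53]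

/-- Increments at `b = 138`. -/
def lT138 : List ℤ := [52, 50, 48, 46, 44, 42, 40, 38, 36, 33, 31, 29, 27, 24, 22, 20, 17, 15, 12, 10, 8, 5, 3, 0, 0, 0, 0, 0, 0, 0, 0, 0, 0, 0, 0, 0, 0, 0, 0, 0, 0, 0, 0, 0, 0, 0, 0, 0, 0, 0, 0, 0, 0, 0, 0, 0, 0, 0, 0, 0, 0, 0, 0, 0, 0, 0, -1, -4, -8, -11, -15, -18, -21, -24, -27, -30, -33, -35, -38, -40, -43, -45, -47, -50, -52, -54]

/-- Increments at `b = 139`. -/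
def lT139 : List ℤ := [52, 50, 48, 46, 44, 42, 40, 38, 36, 33, 31, 29, 27, 24, 22, 20, 17, 15, 13, 10, 8, 5, 3, 0, 0, 0, 0, 0, 0, 0, 0, 0, 0, 0, 0, 0, 0, 0, 0, 0, 0, 0, 0, 0, 0, 0, 0, 0, 0, 0, 0, 0, 0, 0, 0, 0, 0, 0, 0, 0, 0, 0, 0, 0, 0, 0, 0, -2, -6, -10, -13, -16, -20, -23, -26, -28, -31, -34, -36, -39, -42, -44, -46, -49, -51, -53, -55]

/-- Increments at `b = 140`. -/
def lT140 : List ℤ := [53, 51, 49, 47, 45, 43, 41, 39, 37, 34, 32, 30, 28, 25, 23, 21, 18, 16, 14, 11, 9, 6, 4, 1, 0, 0, 0, 0, 0, 0, 0, 0, 0, 0, 0, 0, 0, 0, 0, 0, 0, 0, 0, 0, 0, 0, 0, 0, 0, 0, 0, 0, 0, 0, 0, 0, 0, 0, 0, 0, 0, 0, 0, 0, 0, 0, 0, -1, -5, -8, -12, -15, -18, -21, -24, -27, -30, -33, -35, -38, -41, -43, -45, -48, -50, -52, -55]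

/-- Increments at `b = 141`. -/
def lT141 : List ℤ := [53, 51, 49, 47, 45, 43, 41, 39, 37, 34, 32, 30, 28, 25, 23, 21, 18, 16, 14, 11, 9, 6, 4, 1, 0, 0, 0, 0, 0, 0, 0, 0, 0, 0, 0, 0, 0, 0, 0, 0, 0, 0, 0, 0, 0, 0, 0, 0, 0, 0, 0, 0, 0, 0, 0, 0, 0, 0, 0, 0, 0, 0, 0, 0, 0, 0, 0, 0, -3, -6, -10, -13, -17, -20, -23, -26, -29, -31, -34, -37, -39, -42, -44, -47, -49, -51, -53, -56]

/-- Increments at `b = 142`. -/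
def lT142 : List ℤ := [53, 51, 49, 47, 45, 43, 41, 39, 37, 34, 32, 30, 28, 25, 23, 21, 18, 16, 14, 11, 9, 6, 4, 1, 0, 0, 0, 0, 0, 0, 0, 0, 0, 0, 0, 0, 0, 0, 0, 0, 0, 0, 0, 0, 0, 0, 0, 0, 0, 0, 0, 0, 0, 0, 0, 0, 0, 0, 0, 0, 0, 0, 0, 0, 0, 0, 0, 0, -1, -4, -8, -12, -15, -18, -21, -24, -27, -30, -33, -35, -38, -41, -43, -45, -48, -50, -52, -55, -57]

/-- Increments at `b = 143`. -/
def lT143 : List ℤ := [54, 52, 50, 48, 46, 44, 42, 40, 38, 35, 33, 31, 29, 26, 24, 22, 19, 17, 15, 12, 10, 7, 5, 2, 0, 0, 0, 0, 0, 0, 0, 0, 0, 0, 0, 0, 0, 0, 0, 0, 0, 0, 0, 0, 0, 0, 0, 0, 0, 0, 0, 0, 0, 0, 0, 0, 0, 0, 0, 0, 0, 0, 0, 0, 0, 0, 0, 0, 0, -3, -7, -10, -13, -17, -20, -23, -26, -29, -32, -34, -37, -39, -42, -44, -47, -49, -52, -54, -56]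

/-- Increments at `b = 144`. -/
def lT144 : List ℤ := [54, 52, 50, 48, 46, 44, 42, 40, 38, 35, 33, 31, 29, 26, 24, 22, 19, 17, 15, 12, 10, 7, 5, 3, 0, 0, 0, 0, 0, 0, 0, 0, 0, 0, 0, 0, 0, 0, 0, 0, 0, 0, 0, 0, 0, 0, 0, 0, 0, 0, 0, 0, 0, 0, 0, 0, 0, 0, 0, 0, 0, 0, 0, 0, 0, 0, 0, 0, 0, -1, -5, -8, -12, -15, -18, -21, -24, -27, -30, -33, -36, -38, -41, -43, -46, -48, -50, -53, -55, -57]

/-- Increments at `b = 145`. -/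
def lT145 : List ℤ := [55, 53, 51, 49, 47, 45, 43, 41, 39, 36, 34, 32, 30, 27, 25, 23, 20, 18, 16, 13, 11, 8, 6, 4, 1, 0, 0, 0, 0, 0, 0, 0, 0, 0, 0, 0, 0, 0, 0, 0, 0, 0, 0, 0, 0, 0, 0, 0, 0, 0, 0, 0, 0, 0, 0, 0, 0, 0, 0, 0, 0, 0, 0, 0, 0, 0, 0, 0, 0, 0, -3, -7, -10, -14, -17, -20, -23, -26, -29, -32, -35, -37, -40, -42, -45, -47, -49, -52, -54, -56]

/-- Increments at `b = 146`. -/
def lT146 : List ℤ := [55, 53, 51, 49, 47, 45, 43, 41, 39, 36, 34, 32, 30, 27, 25, 23, 20, 18, 16, 13, 11, 9, 6, 4, 1, 0, 0, 0, 0, 0, 0, 0, 0, 0, 0, 0, 0, 0, 0, 0, 0, 0, 0, 0, 0, 0, 0, 0, 0, 0, 0, 0, 0, 0, 0, 0, 0, 0, 0, 0, 0, 0, 0, 0, 0, 0, 0, 0, 0, 0, -1, -5, -9, -12, -15, -19, -22, -25, -28, -30, -33, -36, -38, -41, -44, -46, -48, -51, -53, -55, -57]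

/-- Increments at `b = 147`. -/
def lT147 : List ℤ := [55, 53, 51, 49, 47, 45, 43, 41, 39, 36, 34, 32, 30, 27, 25, 23, 20, 18, 16, 13, 11, 9, 6, 4, 1, 0, 0, 0, 0, 0, 0, 0, 0, 0, 0, 0, 0, 0, 0, 0, 0, 0, 0, 0, 0, 0, 0, 0, 0, 0, 0, 0, 0, 0, 0, 0, 0, 0, 0, 0, 0, 0, 0, 0, 0, 0, 0, 0, 0, 0, 0, -3, -7, -10, -14, -17, -20, -23, -26, -29, -32, -35, -37, -40, -42, -45, -47, -50, -52, -54, -56, -59]

/-- Increments at `b = 148`. -/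
def lT148 : List ℤ := [56, 54, 52, 50, 48, 46, 44, 42, 40, 37, 35, 33, 31, 28, 26, 24, 21, 19, 17, 14, 12, 10, 7, 5, 2, 0, 0, 0, 0, 0, 0, 0, 0, 0, 0, 0, 0, 0, 0, 0, 0, 0, 0, 0, 0, 0, 0, 0, 0, 0, 0, 0, 0, 0, 0, 0, 0, 0, 0, 0, 0, 0, 0, 0, 0, 0, 0, 0, 0, 0, 0, -1, -5, -9, -12, -15, -19, -22, -25, -28, -31, -33, -36, -39, -41, -44, -46, -49, -51, -53, -56, -58]

/-- Increments at `b = 149`. -/
def lT149 : List ℤ := [56, 54, 52, 50, 48, 46, 44, 42, 40, 37, 35, 33, 31, 28, 26, 24, 21, 19, 17, 14, 12, 10, 7, 5, 2, 0, 0, 0, 0, 0, 0, 0, 0, 0, 0, 0, 0, 0, 0, 0, 0, 0, 0, 0, 0, 0, 0, 0, 0, 0, 0, 0, 0, 0, 0, 0, 0, 0, 0, 0, 0, 0, 0, 0, 0, 0, 0, 0, 0, 0, 0, 0, -3, -7, -10, -14, -17, -20, -23, -26, -29, -32, -35, -37, -40, -43, -45, -47, -50, -52, -54, -57, -59]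

/-- Increments at `b = 150`. -/
def lT150 : List ℤ := [56, 54, 52, 50, 48, 46, 44, 42, 40, 37, 35, 33, 31, 28, 26, 24, 22, 19, 17, 14, 12, 10, 7, 5, 2, 0, 0, 0, 0, 0, 0, 0, 0, 0, 0, 0, 0, 0, 0, 0, 0, 0, 0, 0, 0, 0, 0, 0, 0, 0, 0, 0, 0, 0, 0, 0, 0, 0, 0, 0, 0, 0, 0, 0, 0, 0, 0, 0, 0, 0, 0, 0, -1, -5, -9, -12, -15, -19, -22, -25, -28, -31, -33, -36, -39, -41, -44, -46, -49, -51, -53, -56, -58, -60]

/-- Increments at `b = 151`. -/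
def lT151 : List ℤ := [57, 55, 53, 51, 49, 47, 45, 43, 41, 38, 36, 34, 32, 29, 27, 25, 23, 20, 18, 15, 13, 11, 8, 6, 3, 1, 0, 0, 0, 0, 0, 0, 0, 0, 0, 0, 0, 0, 0, 0, 0, 0, 0, 0, 0, 0, 0, 0, 0, 0, 0, 0, 0, 0, 0, 0, 0, 0, 0, 0, 0, 0, 0, 0, 0, 0, 0, 0, 0, 0, 0, 0, 0, -3, -7, -11, -14, -17, -20, -24, -27, -29, -32, -35, -38, -40, -43, -45, -48, -50, -52, -55, -57, -59]

/-- Increments at `b = 152`. -/
def lT152 : List ℤ := [57, 55, 53, 51, 49, 47, 45, 43, 41, 38, 36, 34, 32, 29, 27, 25, 23, 20, 18, 15, 13, 11, 8, 6, 3, 1, 0, 0, 0, 0, 0, 0, 0, 0, 0, 0, 0, 0, 0, 0, 0, 0, 0, 0, 0, 0, 0, 0, 0, 0, 0, 0, 0, 0, 0, 0, 0, 0, 0, 0, 0, 0, 0, 0, 0, 0, 0, 0, 0, 0, 0, 0, 0, -1, -5, -9, -12, -16, -19, -22, -25, -28, -31, -34, -36, -39, -42, -44, -47, -49, -51, -54, -56, -58, -60]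

/-- Increments at `b = 153`. -/
def lT153 : List ℤ := [58, 56, 54, 52, 50, 48, 46, 44, 42, 39, 37, 35, 33, 30, 28, 26, 24, 21, 19, 16, 14, 12, 9, 7, 4, 2, 0, 0, 0, 0, 0, 0, 0, 0, 0, 0, 0, 0, 0, 0, 0, 0, 0, 0, 0, 0, 0, 0, 0, 0, 0, 0, 0, 0, 0, 0, 0, 0, 0, 0, 0, 0, 0, 0, 0, 0, 0, 0, 0, 0, 0, 0, 0, 0, -4, -7, -11, -14, -17, -21, -24, -27, -30, -32, -35, -38, -40, -43, -46, -48, -50, -53, -55, -57, -59]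

/-- Increments at `b = 154`. -/
def lT154 : List ℤ := [58, 56, 54, 52, 50, 48, 46, 44, 42, 39, 37, 35, 33, 30, 28, 26, 24, 21, 19, 17, 14, 12, 9, 7, 4, 2, 0, 0, 0, 0, 0, 0, 0, 0, 0, 0, 0, 0, 0, 0, 0, 0, 0, 0, 0, 0, 0, 0, 0, 0, 0, 0, 0, 0, 0, 0, 0, 0, 0, 0, 0, 0, 0, 0, 0, 0, 0, 0, 0, 0, 0, 0, 0, 0, -2, -5, -9, -12, -16, -19, -22, -25, -28, -31, -34, -37, -39, -42, -44, -47, -49, -52, -54, -56, -58, -61]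

/-- Increments at `b = 155`. -/
def lT155 : List ℤ := [58, 56, 54, 52, 50, 48, 46, 44, 42, 39, 37, 35, 33, 31, 28, 26, 24, 21, 19, 17, 14, 12, 9, 7, 4, 2, 0, 0, 0, 0, 0, 0, 0, 0, 0, 0, 0, 0, 0, 0, 0, 0, 0, 0, 0, 0, 0, 0, 0, 0, 0, 0, 0, 0, 0, 0, 0, 0, 0, 0, 0, 0, 0, 0, 0, 0, 0, 0, 0, 0, 0, 0, 0, 0, 0, -4, -7, -11, -14, -17, -21, -24, -27, -30, -32, -35, -38, -41, -43, -46, -48, -50, -53, -55, -57, -60, -62]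

/-- Increments at `b = 156`. -/
def lT156 : List ℤ := [59, 57, 55, 53, 51, 49, 47, 45, 43, 40, 38, 36, 34, 32, 29, 27, 25, 22, 20, 18, 15, 13, 10, 8, 5, 3, 1, 0, 0, 0, 0, 0, 0, 0, 0, 0, 0, 0, 0, 0, 0, 0, 0, 0, 0, 0, 0, 0, 0, 0, 0, 0, 0, 0, 0, 0, 0, 0, 0, 0, 0, 0, 0, 0, 0, 0, 0, 0, 0, 0, 0, 0, 0, 0, 0, -2, -6, -9, -13, -16, -19, -22, -25, -28, -31, -34, -37, -39, -42, -45, -47, -49, -52, -54, -56, -59, -61]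

/-- Increments at `b = 157`. -/
def lT157 : List ℤ := [59, 57, 55, 53, 51, 49, 47, 45, 43, 40, 38, 36, 34, 32, 29, 27, 25, 22, 20, 18, 15, 13, 10, 8, 6, 3, 1, 0, 0, 0, 0, 0, 0, 0, 0, 0, 0, 0, 0, 0, 0, 0, 0, 0, 0, 0, 0, 0, 0, 0, 0, 0, 0, 0, 0, 0, 0, 0, 0, 0, 0, 0, 0, 0, 0, 0, 0, 0, 0, 0, 0, 0, 0, 0, 0, 0, -4, -7, -11, -14, -18, -21, -24, -27, -30, -33, -35, -38, -41, -43, -46, -48, -51, -53, -55, -58, -60, -62]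

/-- Increments at `b = 158`. -/
def lT158 : List ℤ := [59, 57, 55, 53, 51, 49, 47, 45, 43, 40, 38, 36, 34, 32, 29, 27, 25, 22, 20, 18, 15, 13, 10, 8, 6, 3, 1, 0, 0, 0, 0, 0, 0, 0, 0, 0, 0, 0, 0, 0, 0, 0, 0, 0, 0, 0, 0, 0, 0, 0, 0, 0, 0, 0, 0, 0, 0, 0, 0, 0, 0, 0, 0, 0, 0, 0, 0, 0, 0, 0, 0, 0, 0, 0, 0, 0, -2, -6, -9, -13, -16, -19, -22, -25, -28, -31, -34, -37, -39, -42, -45, -47, -50, -52, -54, -57, -59, -61, -63]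

/-- Increments at `b = 159`. -/
def lT159 : List ℤ := [60, 58, 56, 54, 52, 50, 48, 46, 44, 41, 39, 37, 35, 33, 30, 28, 26, 23, 21, 19, 16, 14, 11, 9, 7, 4, 2, 0, 0, 0, 0, 0, 0, 0, 0, 0, 0, 0, 0, 0, 0, 0, 0, 0, 0, 0, 0, 0, 0, 0, 0, 0, 0, 0, 0, 0, 0, 0, 0, 0, 0, 0, 0, 0, 0, 0, 0, 0, 0, 0, 0, 0, 0, 0, 0, 0, 0, -4, -8, -11, -15, -18, -21, -24, -27, -30, -33, -36, -38, -41, -44, -46, -49, -51, -53, -56, -58, -60, -62]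

/-- Increments at `b = 160`. -/
def lT160 : List ℤ := [60, 58, 56, 54, 52, 50, 48, 46, 44, 41, 39, 37, 35, 33, 30, 28, 26, 23, 21, 19, 16, 14, 12, 9, 7, 4, 2, 0, 0, 0, 0, 0, 0, 0, 0, 0, 0, 0, 0, 0, 0, 0, 0, 0, 0, 0, 0, 0, 0, 0, 0, 0, 0, 0, 0, 0, 0, 0, 0, 0, 0, 0, 0, 0, 0, 0, 0, 0, 0, 0, 0, 0, 0, 0, 0, 0, 0, -2, -6, -9, -13, -16, -19, -23, -26, -29, -31, -34, -37, -40, -42, -45, -47, -50, -52, -55, -57, -59, -61, -64]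

/-- Increments at `b = 161`. -/
def lT161 : List ℤ := [61, 59, 57, 55, 53, 51, 49, 47, 45, 42, 40, 38, 36, 34, 31, 29, 27, 24, 22, 20, 17, 15, 13, 10, 8, 5, 3, 0, 0, 0, 0, 0, 0, 0, 0, 0, 0, 0, 0, 0, 0, 0, 0, 0, 0, 0, 0, 0, 0, 0, 0, 0, 0, 0, 0, 0, 0, 0, 0, 0, 0, 0, 0, 0, 0, 0, 0, 0, 0, 0, 0, 0, 0, 0, 0, 0, 0, 0, -4, -8, -11, -15, -18, -21, -24, -27, -30, -33, -36, -39, -41, -44, -46, -49, -51, -54, -56, -58, -60, -63]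

/-- Increments at `b = 162`. -/
def lT162 : List ℤ := [61, 59, 57, 55, 53, 51, 49, 47, 45, 43, 40, 38, 36, 34, 31, 29, 27, 24, 22, 20, 17, 15, 13, 10, 8, 5, 3, 0, 0, 0, 0, 0, 0, 0, 0, 0, 0, 0, 0, 0, 0, 0, 0, 0, 0, 0, 0, 0, 0, 0, 0, 0, 0, 0, 0, 0, 0, 0, 0, 0, 0, 0, 0, 0, 0, 0, 0, 0, 0, 0, 0, 0, 0, 0, 0, 0, 0, 0, -2, -6, -10, -13, -16, -20, -23, -26, -29, -32, -34, -37, -40, -43, -45, -48, -50, -52, -55, -57, -59, -62, -64]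

/-- Increments at `b = 163`. -/
def lT163 : List ℤ := [61, 59, 57, 55, 53, 51, 49, 47, 45, 43, 40, 38, 36, 34, 31, 29, 27, 24, 22, 20, 17, 15, 13, 10, 8, 5, 3, 0, 0, 0, 0, 0, 0, 0, 0, 0, 0, 0, 0, 0, 0, 0, 0, 0, 0, 0, 0, 0, 0, 0, 0, 0, 0, 0, 0, 0, 0, 0, 0, 0, 0, 0, 0, 0, 0, 0, 0, 0, 0, 0, 0, 0, 0, 0, 0, 0, 0, 0, 0, -4, -8, -11, -15, -18, -21, -24, -27, -30, -33, -36, -39, -41, -44, -46, -49, -51, -54, -56, -58, -61, -63, -65]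

/-- Increments at `b = 164`. -/
def lT164 : List ℤ := [62, 60, 58, 56, 54, 52, 50, 48, 46, 44, 41, 39, 37, 35, 32, 30, 28, 25, 23, 21, 18, 16, 14, 11, 9, 6, 4, 1, 0, 0, 0, 0, 0, 0, 0, 0, 0, 0, 0, 0, 0, 0, 0, 0, 0, 0, 0, 0, 0, 0, 0, 0, 0, 0, 0, 0, 0, 0, 0, 0, 0, 0, 0, 0, 0, 0, 0, 0, 0, 0, 0, 0, 0, 0, 0, 0, 0, 0, 0, -2, -6, -10, -13, -17, -20, -23, -26, -29, -32, -35, -37, -40, -43, -45, -48, -50, -53, -55, -57, -60, -62, -64]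

/-- Increments at `b = 165`. -/
def lT165 : List ℤ := [62, 60, 58, 56, 54, 52, 50, 48, 46, 44, 41, 39, 37, 35, 32, 30, 28, 25, 23, 21, 18, 16, 14, 11, 9, 6, 4, 1, 0, 0, 0, 0, 0, 0, 0, 0, 0, 0, 0, 0, 0, 0, 0, 0, 0, 0, 0, 0, 0, 0, 0, 0, 0, 0, 0, 0, 0, 0, 0, 0, 0, 0, 0, 0, 0, 0, 0, 0, 0, 0, 0, 0, 0, 0, 0, 0, 0, 0, 0, 0, -4, -8, -11, -15, -18, -21, -24, -27, -30, -33, -36, -39, -41, -44, -47, -49, -52, -54, -56, -59, -61, -63, -65]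

/-- Increments at `b = 166`. -/
def lT166 : List ℤ := [62, 60, 58, 56, 54, 52, 50, 48, 46, 44, 41, 39, 37, 35, 32, 30, 28, 25, 23, 21, 18, 16, 14, 11, 9, 6, 4, 2, 0, 0, 0, 0, 0, 0, 0, 0, 0, 0, 0, 0, 0, 0, 0, 0, 0, 0, 0, 0, 0, 0, 0, 0, 0, 0, 0, 0, 0, 0, 0, 0, 0, 0, 0, 0, 0, 0, 0, 0, 0, 0, 0, 0, 0, 0, 0, 0, 0, 0, 0, 0, -2, -6, -10, -13, -16, -20, -23, -26, -29, -32, -35, -37, -40, -43, -45, -48, -50, -53, -55, -58, -60, -62, -64, -66]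

/-- Increments at `b = 167`. -/
def lT167 : List ℤ := [63, 61, 59, 57, 55, 53, 51, 49, 47, 45, 42, 40, 38, 36, 33, 31, 29, 26, 24, 22, 19, 17, 15, 12, 10, 7, 5, 3, 0, 0, 0, 0, 0, 0, 0, 0, 0, 0, 0, 0, 0, 0, 0, 0, 0, 0, 0, 0, 0, 0, 0, 0, 0, 0, 0, 0, 0, 0, 0, 0, 0, 0, 0, 0, 0, 0, 0, 0, 0, 0, 0, 0, 0, 0, 0, 0, 0, 0, 0, 0, -1, -4, -8, -12, -15, -18, -22, -25, -28, -31, -33, -36, -39, -42, -44, -47, -49, -52, -54, -57, -59, -61, -63, -66]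

/-- Increments at `b = 168`. -/
def lT168 : List ℤ := [63, 61, 59, 57, 55, 53, 51, 49, 47, 45, 42, 40, 38, 36, 33, 31, 29, 27, 24, 22, 19, 17, 15, 12, 10, 7, 5, 3, 0, 0, 0, 0, 0, 0, 0, 0, 0, 0, 0, 0, 0, 0, 0, 0, 0, 0, 0, 0, 0, 0, 0, 0, 0, 0, 0, 0, 0, 0, 0, 0, 0, 0, 0, 0, 0, 0, 0, 0, 0, 0, 0, 0, 0, 0, 0, 0, 0, 0, 0, 0, 0, -3, -6, -10, -13, -17, -20, -23, -26, -29, -32, -35, -38, -40, -43, -46, -48, -51, -53, -55, -58, -60, -62, -65, -67]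

/-- Increments at `b = 169`. -/
def lT169 : List ℤ := [64, 62, 60, 58, 56, 54, 52, 50, 48, 46, 43, 41, 39, 37, 34, 32, 30, 28, 25, 23, 20, 18, 16, 13, 11, 8, 6, 4, 1, 0, 0, 0, 0, 0, 0, 0, 0, 0, 0, 0, 0, 0, 0, 0, 0, 0, 0, 0, 0, 0, 0, 0, 0, 0, 0, 0, 0, 0, 0, 0, 0, 0, 0, 0, 0, 0, 0, 0, 0, 0, 0, 0, 0, 0, 0, 0, 0, 0, 0, 0, 0, -1, -5, -8, -12, -15, -19, -22, -25, -28, -31, -34, -36, -39, -42, -45, -47, -50, -52, -54, -57, -59, -61, -64, -66]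

/-- Increments at `b = 170`. -/
def lT170 : List ℤ := [64, 62, 60, 58, 56, 54, 52, 50, 48, 46, 43, 41, 39, 37, 34, 32, 30, 28, 25, 23, 21, 18, 16, 13, 11, 9, 6, 4, 1, 0, 0, 0, 0, 0, 0, 0, 0, 0, 0, 0, 0, 0, 0, 0, 0, 0, 0, 0, 0, 0, 0, 0, 0, 0, 0, 0, 0, 0, 0, 0, 0, 0, 0, 0, 0, 0, 0, 0, 0, 0, 0, 0, 0, 0, 0, 0, 0, 0, 0, 0, 0, 0, -3, -6, -10, -14, -17, -20, -23, -26, -29, -32, -35, -38, -41, -43, -46, -48, -51, -53, -56, -58, -60, -63, -65, -67]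

/-- Increments at `b = 171`. -/
def lT171 : List ℤ := [64, 62, 60, 58, 56, 54, 52, 50, 48, 46, 43, 41, 39, 37, 34, 32, 30, 28, 25, 23, 21, 18, 16, 13, 11, 9, 6, 4, 1, 0, 0, 0, 0, 0, 0, 0, 0, 0, 0, 0, 0, 0, 0, 0, 0, 0, 0, 0, 0, 0, 0, 0, 0, 0, 0, 0, 0, 0, 0, 0, 0, 0, 0, 0, 0, 0, 0, 0, 0, 0, 0, 0, 0, 0, 0, 0, 0, 0, 0, 0, 0, 0, -1, -5, -8, -12, -15, -18, -22, -25, -28, -31, -34, -36, -39, -42, -45, -47, -50, -52, -55, -57, -59, -62, -64, -66, -68]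

/-- Increments at `b = 172`. -/
def lT172 : List ℤ := [65, 63, 61, 59, 57, 55, 53, 51, 49, 47, 44, 42, 40, 38, 35, 33, 31, 29, 26, 24, 22, 19, 17, 14, 12, 10, 7, 5, 2, 0, 0, 0, 0, 0, 0, 0, 0, 0, 0, 0, 0, 0, 0, 0, 0, 0, 0, 0, 0, 0, 0, 0, 0, 0, 0, 0, 0, 0, 0, 0, 0, 0, 0, 0, 0, 0, 0, 0, 0, 0, 0, 0, 0, 0, 0, 0, 0, 0, 0, 0, 0, 0, 0, -3, -7, -10, -14, -17, -20, -23, -27, -30, -32, -35, -38, -41, -43, -46, -49, -51, -54, -56, -58, -61, -63, -65, -67]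

/-- Increments at `b = 173`. -/
def lT173 : List ℤ := [65, 63, 61, 59, 57, 55, 53, 51, 49, 47, 44, 42, 40, 38, 35, 33, 31, 29, 26, 24, 22, 19, 17, 14, 12, 10, 7, 5, 2, 0, 0, 0, 0, 0, 0, 0, 0, 0, 0, 0, 0, 0, 0, 0, 0, 0, 0, 0, 0, 0, 0, 0, 0, 0, 0, 0, 0, 0, 0, 0, 0, 0, 0, 0, 0, 0, 0, 0, 0, 0, 0, 0, 0, 0, 0, 0, 0, 0, 0, 0, 0, 0, 0, -1, -5, -8, -12, -15, -19, -22, -25, -28, -31, -34, -37, -39, -42, -45, -47, -50, -52, -55, -57, -60, -62, -64, -66, -69]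

/-- Increments at `b = 174`. -/
def lT174 : List ℤ := [65, 63, 61, 59, 57, 55, 53, 51, 49, 47, 44, 42, 40, 38, 35, 33, 31, 29, 26, 24, 22, 19, 17, 15, 12, 10, 7, 5, 2, 0, 0, 0, 0, 0, 0, 0, 0, 0, 0, 0, 0, 0, 0, 0, 0, 0, 0, 0, 0, 0, 0, 0, 0, 0, 0, 0, 0, 0, 0, 0, 0, 0, 0, 0, 0, 0, 0, 0, 0, 0, 0, 0, 0, 0, 0, 0, 0, 0, 0, 0, 0, 0, 0, 0, -3, -7, -10, -14, -17, -20, -23, -26, -30, -32, -35, -38, -41, -43, -46, -49, -51, -54, -56, -58, -61, -63, -65, -68, -70]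

/-- Increments at `b = 175`. -/
def lT175 : List ℤ := [66, 64, 62, 60, 58, 56, 54, 52, 50, 48, 45, 43, 41, 39, 36, 34, 32, 30, 27, 25, 23, 20, 18, 16, 13, 11, 8, 6, 3, 1, 0, 0, 0, 0, 0, 0, 0, 0, 0, 0, 0, 0, 0, 0, 0, 0, 0, 0, 0, 0, 0, 0, 0, 0, 0, 0, 0, 0, 0, 0, 0, 0, 0, 0, 0, 0, 0, 0, 0, 0, 0, 0, 0, 0, 0, 0, 0, 0, 0, 0, 0, 0, 0, 0, -1, -5, -9, -12, -16, -19, -22, -25, -28, -31, -34, -37, -40, -42, -45, -48, -50, -53, -55, -57, -60, -62, -64, -67, -69]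

/-- Increments at `b = 176`. -/
def lT176 : List ℤ := [66, 64, 62, 60, 58, 56, 54, 52, 50, 48, 45, 43, 41, 39, 36, 34, 32, 30, 27, 25, 23, 20, 18, 16, 13, 11, 8, 6, 3, 1, 0, 0, 0, 0, 0, 0, 0, 0, 0, 0, 0, 0, 0, 0, 0, 0, 0, 0, 0, 0, 0, 0, 0, 0, 0, 0, 0, 0, 0, 0, 0, 0, 0, 0, 0, 0, 0, 0, 0, 0, 0, 0, 0, 0, 0, 0, 0, 0, 0, 0, 0, 0, 0, 0, 0, -3, -7, -10, -14, -17, -20, -24, -27, -30, -33, -35, -38, -41, -44, -46, -49, -51, -54, -56, -59, -61, -63, -66, -68, -70]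

/-- Increments at `b = 177`. -/
def lT177 : List ℤ := [67, 65, 63, 61, 59, 57, 55, 53, 51, 49, 46, 44, 42, 40, 37, 35, 33, 31, 28, 26, 24, 21, 19, 17, 14, 12, 9, 7, 4, 2, 0, 0, 0, 0, 0, 0, 0, 0, 0, 0, 0, 0, 0, 0, 0, 0, 0, 0, 0, 0, 0, 0, 0, 0, 0, 0, 0, 0, 0, 0, 0, 0, 0, 0, 0, 0, 0, 0, 0, 0, 0, 0, 0, 0, 0, 0, 0, 0, 0, 0, 0, 0, 0, 0, 0, -1, -5, -9, -12, -16, -19, -22, -25, -28, -31, -34, -37, -40, -43, -45, -48, -50, -53, -55, -58, -60, -62, -65, -67, -69]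

/-- Increments at `b = 178`. -/
def lT178 : List ℤ := [67, 65, 63, 61, 59, 57, 55, 53, 51, 49, 46, 44, 42, 40, 38, 35, 33, 31, 28, 26, 24, 21, 19, 17, 14, 12, 9, 7, 4, 2, 0, 0, 0, 0, 0, 0, 0, 0, 0, 0, 0, 0, 0, 0, 0, 0, 0, 0, 0, 0, 0, 0, 0, 0, 0, 0, 0, 0, 0, 0, 0, 0, 0, 0, 0, 0, 0, 0, 0, 0, 0, 0, 0, 0, 0, 0, 0, 0, 0, 0, 0, 0, 0, 0, 0, 0, -3, -7, -11, -14, -17, -21, -24, -27, -30, -33, -36, -39, -41, -44, -47, -49, -52, -54, -57, -59, -61, -64, -66, -68, -70]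

/-- Increments at `b = 179`. -/
def lT179 : List ℤ := [67, 65, 63, 61, 59, 57, 55, 53, 51, 49, 46, 44, 42, 40, 38, 35, 33, 31, 28, 26, 24, 21, 19, 17, 14, 12, 9, 7, 5, 2, 0, 0, 0, 0, 0, 0, 0, 0, 0, 0, 0, 0, 0, 0, 0, 0, 0, 0, 0, 0, 0, 0, 0, 0, 0, 0, 0, 0, 0, 0, 0, 0, 0, 0, 0, 0, 0, 0, 0, 0, 0, 0, 0, 0, 0, 0, 0, 0, 0, 0, 0, 0, 0, 0, 0, 0, -1, -5, -9, -12, -16, -19, -22, -25, -28, -31, -34, -37, -40, -43, -45, -48, -50, -53, -55, -58, -60, -63, -65, -67, -69, -71]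

/-- Increments at `b = 180`. -/
def lT180 : List ℤ := [68, 66, 64, 62, 60, 58, 56, 54, 52, 50, 47, 45, 43, 41, 39, 36, 34, 32, 29, 27, 25, 22, 20, 18, 15, 13, 10, 8, 6, 3, 1, 0, 0, 0, 0, 0, 0, 0, 0, 0, 0, 0, 0, 0, 0, 0, 0, 0, 0, 0, 0, 0, 0, 0, 0, 0, 0, 0, 0, 0, 0, 0, 0, 0, 0, 0, 0, 0, 0, 0, 0, 0, 0, 0, 0, 0, 0, 0, 0, 0, 0, 0, 0, 0, 0, 0, 0, -4, -7, -11, -14, -18, -21, -24, -27, -30, -33, -36, -39, -41, -44, -47, -49, -52, -54, -57, -59, -62, -64, -66, -68, -71]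

/-- Increments at `b = 181`. -/
def lT181 : List ℤ := [68, 66, 64, 62, 60, 58, 56, 54, 52, 50, 47, 45, 43, 41, 39, 36, 34, 32, 29, 27, 25, 22, 20, 18, 15, 13, 10, 8, 6, 3, 1, 0, 0, 0, 0, 0, 0, 0, 0, 0, 0, 0, 0, 0, 0, 0, 0, 0, 0, 0, 0, 0, 0, 0, 0, 0, 0, 0, 0, 0, 0, 0, 0, 0, 0, 0, 0, 0, 0, 0, 0, 0, 0, 0, 0, 0, 0, 0, 0, 0, 0, 0, 0, 0, 0, 0, 0, -2, -5, -9, -12, -16, -19, -22, -26, -29, -32, -34, -37, -40, -43, -45, -48, -51, -53, -56, -58, -60, -63, -65, -67, -70, -72]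

/-- Increments at `b = 182`. -/
def lT182 : List ℤ := [68, 66, 64, 62, 60, 58, 56, 54, 52, 50, 47, 45, 43, 41, 39, 36, 34, 32, 29, 27, 25, 22, 20, 18, 15, 13, 11, 8, 6, 3, 1, 0, 0, 0, 0, 0, 0, 0, 0, 0, 0, 0, 0, 0, 0, 0, 0, 0, 0, 0, 0, 0, 0, 0, 0, 0, 0, 0, 0, 0, 0, 0, 0, 0, 0, 0, 0, 0, 0, 0, 0, 0, 0, 0, 0, 0, 0, 0, 0, 0, 0, 0, 0, 0, 0, 0, 0, 0, -3, -7, -11, -14, -17, -21, -24, -27, -30, -33, -36, -39, -41, -44, -47, -49, -52, -54, -57, -59, -62, -64, -66, -69, -71, -73]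

/-- Increments at `b = 183`. -/
def lT183 : List ℤ := [69, 67, 65, 63, 61, 59, 57, 55, 53, 51, 48, 46, 44, 42, 40, 37, 35, 33, 30, 28, 26, 23, 21, 19, 16, 14, 12, 9, 7, 4, 2, 0, 0, 0, 0, 0, 0, 0, 0, 0, 0, 0, 0, 0, 0, 0, 0, 0, 0, 0, 0, 0, 0, 0, 0, 0, 0, 0, 0, 0, 0, 0, 0, 0, 0, 0, 0, 0, 0, 0, 0, 0, 0, 0, 0, 0, 0, 0, 0, 0, 0, 0, 0, 0, 0, 0, 0, 0, -2, -6, -9, -13, -16, -19, -23, -26, -29, -32, -35, -38, -40, -43, -46, -48, -51, -53, -56, -58, -61, -63, -65, -68, -70, -72]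

/-- Increments at `b = 184`. -/
def lT184 : List ℤ := [69, 67, 65, 63, 61, 59, 57, 55, 53, 51, 48, 46, 44, 42, 40, 37, 35, 33, 30, 28, 26, 23, 21, 19, 16, 14, 12, 9, 7, 4, 2, 0, 0, 0, 0, 0, 0, 0, 0, 0, 0, 0, 0, 0, 0, 0, 0, 0, 0, 0, 0, 0, 0, 0, 0, 0, 0, 0, 0, 0, 0, 0, 0, 0, 0, 0, 0, 0, 0, 0, 0, 0, 0, 0, 0, 0, 0, 0, 0, 0, 0, 0, 0, 0, 0, 0, 0, 0, 0, -4, -7, -11, -14, -18, -21, -24, -27, -30, -33, -36, -39, -42, -44, -47, -50, -52, -55, -57, -60, -62, -64, -67, -69, -71, -73]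

/-- Increments at `b = 185`. -/
def lT185 : List ℤ := [70, 68, 66, 64, 62, 60, 58, 56, 54, 52, 49, 47, 45, 43, 41, 38, 36, 34, 31, 29, 27, 24, 22, 20, 17, 15, 13, 10, 8, 5, 3, 0, 0, 0, 0, 0, 0, 0, 0, 0, 0, 0, 0, 0, 0, 0, 0, 0, 0, 0, 0, 0, 0, 0, 0, 0, 0, 0, 0, 0, 0, 0, 0, 0, 0, 0, 0, 0, 0, 0, 0, 0, 0, 0, 0, 0, 0, 0, 0, 0, 0, 0, 0, 0, 0, 0, 0, 0, 0, -2, -6, -9, -13, -16, -20, -23, -26, -29, -32, -35, -38, -41, -43, -46, -49, -51, -54, -56, -59, -61, -63, -66, -68, -70, -72]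

/-- Increments at `b = 186`. -/
def lT186 : List ℤ := [70, 68, 66, 64, 62, 60, 58, 56, 54, 52, 49, 47, 45, 43, 41, 38, 36, 34, 31, 29, 27, 25, 22, 20, 17, 15, 13, 10, 8, 5, 3, 0, 0, 0, 0, 0, 0, 0, 0, 0, 0, 0, 0, 0, 0, 0, 0, 0, 0, 0, 0, 0, 0, 0, 0, 0, 0, 0, 0, 0, 0, 0, 0, 0, 0, 0, 0, 0, 0, 0, 0, 0, 0, 0, 0, 0, 0, 0, 0, 0, 0, 0, 0, 0, 0, 0, 0, 0, 0, 0, -4, -7, -11, -15, -18, -21, -24, -27, -30, -33, -36, -39, -42, -45, -47, -50, -52, -55, -57, -60, -62, -65, -67, -69, -71, -73]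

/-- Increments at `b = 187`. -/
def lT187 : List ℤ := [70, 68, 66, 64, 62, 60, 58, 56, 54, 52, 49, 47, 45, 43, 41, 38, 36, 34, 32, 29, 27, 25, 22, 20, 17, 15, 13, 10, 8, 5, 3, 0, 0, 0, 0, 0, 0, 0, 0, 0, 0, 0, 0, 0, 0, 0, 0, 0, 0, 0, 0, 0, 0, 0, 0, 0, 0, 0, 0, 0, 0, 0, 0, 0, 0, 0, 0, 0, 0, 0, 0, 0, 0, 0, 0, 0, 0, 0, 0, 0, 0, 0, 0, 0, 0, 0, 0, 0, 0, 0, -2, -6, -9, -13, -16, -19, -23, -26, -29, -32, -35, -38, -41, -43, -46, -49, -51, -54, -56, -59, -61, -63, -66, -68, -70, -72, -75]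

/-- Increments at `b = 188`. -/
def lT188 : List ℤ := [71, 69, 67, 65, 63, 61, 59, 57, 55, 53, 50, 48, 46, 44, 42, 39, 37, 35, 33, 30, 28, 26, 23, 21, 18, 16, 14, 11, 9, 6, 4, 1, 0, 0, 0, 0, 0, 0, 0, 0, 0, 0, 0, 0, 0, 0, 0, 0, 0, 0, 0, 0, 0, 0, 0, 0, 0, 0, 0, 0, 0, 0, 0, 0, 0, 0, 0, 0, 0, 0, 0, 0, 0, 0, 0, 0, 0, 0, 0, 0, 0, 0, 0, 0, 0, 0, 0, 0, 0, 0, 0, -4, -8, -11, -15, -18, -21, -25, -28, -31, -34, -37, -39, -42, -45, -47, -50, -53, -55, -58, -60, -62, -65, -67, -69, -72, -74]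

/-- Increments at `b = 189`. -/
def lT189 : List ℤ := [71, 69, 67, 65, 63, 61, 59, 57, 55, 53, 50, 48, 46, 44, 42, 39, 37, 35, 33, 30, 28, 26, 23, 21, 18, 16, 14, 11, 9, 6, 4, 2, 0, 0, 0, 0, 0, 0, 0, 0, 0, 0, 0, 0, 0, 0, 0, 0, 0, 0, 0, 0, 0, 0, 0, 0, 0, 0, 0, 0, 0, 0, 0, 0, 0, 0, 0, 0, 0, 0, 0, 0, 0, 0, 0, 0, 0, 0, 0, 0, 0, 0, 0, 0, 0, 0, 0, 0, 0, 0, 0, -2, -6, -9, -13, -16, -20, -23, -26, -29, -32, -35, -38, -41, -44, -46, -49, -51, -54, -56, -59, -61, -64, -66, -68, -71, -73, -75]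

/-- Increments at `b = 190`. -/
def lT190 : List ℤ := [71, 69, 67, 65, 63, 61, 59, 57, 55, 53, 50, 48, 46, 44, 42, 39, 37, 35, 33, 30, 28, 26, 23, 21, 19, 16, 14, 11, 9, 6, 4, 2, 0, 0, 0, 0, 0, 0, 0, 0, 0, 0, 0, 0, 0, 0, 0, 0, 0, 0, 0, 0, 0, 0, 0, 0, 0, 0, 0, 0, 0, 0, 0, 0, 0, 0, 0, 0, 0, 0, 0, 0, 0, 0, 0, 0, 0, 0, 0, 0, 0, 0, 0, 0, 0, 0, 0, 0, 0, 0, 0, 0, -4, -8, -11, -15, -18, -21, -24, -28, -31, -34, -37, -39, -42, -45, -48, -50, -53, -55, -58, -60, -63, -65, -67, -69, -72, -74, -76]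

/-- Increments at `b = 191`. -/
def lT191 : List ℤ := [72, 70, 68, 66, 64, 62, 60, 58, 56, 54, 51, 49, 47, 45, 43, 40, 38, 36, 34, 31, 29, 27, 24, 22, 20, 17, 15, 12, 10, 7, 5, 3, 0, 0, 0, 0, 0, 0, 0, 0, 0, 0, 0, 0, 0, 0, 0, 0, 0, 0, 0, 0, 0, 0, 0, 0, 0, 0, 0, 0, 0, 0, 0, 0, 0, 0, 0, 0, 0, 0, 0, 0, 0, 0, 0, 0, 0, 0, 0, 0, 0, 0, 0, 0, 0, 0, 0, 0, 0, 0, 0, 0, -2, -6, -10, -13, -17, -20, -23, -26, -29, -32, -35, -38, -41, -44, -46, -49, -52, -54, -57, -59, -62, -64, -66, -69, -71, -73, -75]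

/-- Increments at `b = 192`. -/
def lT192 : List ℤ := [72, 70, 68, 66, 64, 62, 60, 58, 56, 54, 51, 49, 47, 45, 43, 40, 38, 36, 34, 31, 29, 27, 24, 22, 20, 17, 15, 12, 10, 8, 5, 3, 0, 0, 0, 0, 0, 0, 0, 0, 0, 0, 0, 0, 0, 0, 0, 0, 0, 0, 0, 0, 0, 0, 0, 0, 0, 0, 0, 0, 0, 0, 0, 0, 0, 0, 0, 0, 0, 0, 0, 0, 0, 0, 0, 0, 0, 0, 0, 0, 0, 0, 0, 0, 0, 0, 0, 0, 0, 0, 0, 0, 0, -4, -8, -11, -15, -18, -21, -25, -28, -31, -34, -37, -40, -42, -45, -48, -50, -53, -55, -58, -60, -63, -65, -67, -70, -72, -74, -76]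

/-- Increments at `b = 193`. -/
def lT193 : List ℤ := [73, 71, 69, 67, 65, 63, 61, 59, 57, 55, 52, 50, 48, 46, 44, 41, 39, 37, 35, 32, 30, 28, 25, 23, 21, 18, 16, 13, 11, 9, 6, 4, 1, 0, 0, 0, 0, 0, 0, 0, 0, 0, 0, 0, 0, 0, 0, 0, 0, 0, 0, 0, 0, 0, 0, 0, 0, 0, 0, 0, 0, 0, 0, 0, 0, 0, 0, 0, 0, 0, 0, 0, 0, 0, 0, 0, 0, 0, 0, 0, 0, 0, 0, 0, 0, 0, 0, 0, 0, 0, 0, 0, 0, -3, -6, -10, -13, -17, -20, -23, -26, -30, -33, -36, -38, -41, -44, -47, -49, -52, -54, -57, -59, -62, -64, -67, -69, -71, -73, -76]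

/-- Increments at `b = 194`. -/
def lT194 : List ℤ := [73, 71, 69, 67, 65, 63, 61, 59, 57, 55, 52, 50, 48, 46, 44, 41, 39, 37, 35, 32, 30, 28, 25, 23, 21, 18, 16, 13, 11, 9, 6, 4, 1, 0, 0, 0, 0, 0, 0, 0, 0, 0, 0, 0, 0, 0, 0, 0, 0, 0, 0, 0, 0, 0, 0, 0, 0, 0, 0, 0, 0, 0, 0, 0, 0, 0, 0, 0, 0, 0, 0, 0, 0, 0, 0, 0, 0, 0, 0, 0, 0, 0, 0, 0, 0, 0, 0, 0, 0, 0, 0, 0, 0, -1, -4, -8, -12, -15, -18, -22, -25, -28, -31, -34, -37, -40, -43, -45, -48, -51, -53, -56, -58, -61, -63, -65, -68, -70, -72, -74, -77]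

/-- Increments at `b = 195`. -/
def lT195 : List ℤ := [73, 71, 69, 67, 65, 63, 61, 59, 57, 55, 53, 50, 48, 46, 44, 41, 39, 37, 35, 32, 30, 28, 25, 23, 21, 18, 16, 13, 11, 9, 6, 4, 1, 0, 0, 0, 0, 0, 0, 0, 0, 0, 0, 0, 0, 0, 0, 0, 0, 0, 0, 0, 0, 0, 0, 0, 0, 0, 0, 0, 0, 0, 0, 0, 0, 0, 0, 0, 0, 0, 0, 0, 0, 0, 0, 0, 0, 0, 0, 0, 0, 0, 0, 0, 0, 0, 0, 0, 0, 0, 0, 0, 0, 0, -2, -6, -10, -13, -17, -20, -23, -26, -30, -33, -35, -38, -41, -44, -47, -49, -52, -54, -57, -59, -62, -64, -67, -69, -71, -73, -76, -78]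

/-- Increments at `b = 196`. -/
def lT196 : List ℤ := [74, 72, 70, 68, 66, 64, 62, 60, 58, 56, 54, 51, 49, 47, 45, 42, 40, 38, 36, 33, 31, 29, 26, 24, 22, 19, 17, 14, 12, 10, 7, 5, 2, 0, 0, 0, 0, 0, 0, 0, 0, 0, 0, 0, 0, 0, 0, 0, 0, 0, 0, 0, 0, 0, 0, 0, 0, 0, 0, 0, 0, 0, 0, 0, 0, 0, 0, 0, 0, 0, 0, 0, 0, 0, 0, 0, 0, 0, 0, 0, 0, 0, 0, 0, 0, 0, 0, 0, 0, 0, 0, 0, 0, 0, -1, -5, -8, -12, -15, -19, -22, -25, -28, -31, -34, -37, -40, -43, -46, -48, -51, -53, -56, -58, -61, -63, -66, -68, -70, -73, -75, -77]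

/-- Increments at `b = 197`. -/
def lT197 : List ℤ := [74, 72, 70, 68, 66, 64, 62, 60, 58, 56, 54, 51, 49, 47, 45, 42, 40, 38, 36, 33, 31, 29, 26, 24, 22, 19, 17, 15, 12, 10, 7, 5, 2, 0, 0, 0, 0, 0, 0, 0, 0, 0, 0, 0, 0, 0, 0, 0, 0, 0, 0, 0, 0, 0, 0, 0, 0, 0, 0, 0, 0, 0, 0, 0, 0, 0, 0, 0, 0, 0, 0, 0, 0, 0, 0, 0, 0, 0, 0, 0, 0, 0, 0, 0, 0, 0, 0, 0, 0, 0, 0, 0, 0, 0, 0, -3, -6, -10, -13, -17, -20, -23, -27, -30, -33, -36, -39, -41, -44, -47, -50, -52, -55, -57, -60, -62, -65, -67, -69, -71, -74, -76, -78]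

/-- Increments at `b = 198`. -/
def lT198 : List ℤ := [74, 72, 70, 68, 66, 64, 62, 60, 58, 56, 54, 51, 49, 47, 45, 42, 40, 38, 36, 33, 31, 29, 26, 24, 22, 19, 17, 15, 12, 10, 7, 5, 2, 0, 0, 0, 0, 0, 0, 0, 0, 0, 0, 0, 0, 0, 0, 0, 0, 0, 0, 0, 0, 0, 0, 0, 0, 0, 0, 0, 0, 0, 0, 0, 0, 0, 0, 0, 0, 0, 0, 0, 0, 0, 0, 0, 0, 0, 0, 0, 0, 0, 0, 0, 0, 0, 0, 0, 0, 0, 0, 0, 0, 0, 0, -1, -4, -8, -12, -15, -19, -22, -25, -28, -31, -34, -37, -40, -43, -46, -48, -51, -53, -56, -58, -61, -63, -66, -68, -70, -73, -75, -77, -79]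

/-- Increments at `b = 199`. -/
def lT199 : List ℤ := [75, 73, 71, 69, 67, 65, 63, 61, 59, 57, 55, 52, 50, 48, 46, 43, 41, 39, 37, 34, 32, 30, 27, 25, 23, 20, 18, 16, 13, 11, 8, 6, 3, 1, 0, 0, 0, 0, 0, 0, 0, 0, 0, 0, 0, 0, 0, 0, 0, 0, 0, 0, 0, 0, 0, 0, 0, 0, 0, 0, 0, 0, 0, 0, 0, 0, 0, 0, 0, 0, 0, 0, 0, 0, 0, 0, 0, 0, 0, 0, 0, 0, 0, 0, 0, 0, 0, 0, 0, 0, 0, 0, 0, 0, 0, 0, -3, -7, -10, -14, -17, -20, -24, -27, -30, -33, -36, -39, -42, -44, -47, -50, -52, -55, -57, -60, -62, -65, -67, -69, -72, -74, -76, -78]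

/-- Increments at `b = 200`. -/
def lT200 : List ℤ := [75, 73, 71, 69, 67, 65, 63, 61, 59, 57, 55, 52, 50, 48, 46, 43, 41, 39, 37, 34, 32, 30, 27, 25, 23, 20, 18, 16, 13, 11, 8, 6, 3, 1, 0, 0, 0, 0, 0, 0, 0, 0, 0, 0, 0, 0, 0, 0, 0, 0, 0, 0, 0, 0, 0, 0, 0, 0, 0, 0, 0, 0, 0, 0, 0, 0, 0, 0, 0, 0, 0, 0, 0, 0, 0, 0, 0, 0, 0, 0, 0, 0, 0, 0, 0, 0, 0, 0, 0, 0, 0, 0, 0, 0, 0, 0, -1, -5, -8, -12, -15, -19, -22, -25, -28, -31, -34, -37, -40, -43, -46, -48, -51, -54, -56, -59, -61, -64, -66, -68, -71, -73, -75, -77, -80]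

/-- The profiles for `b ≤ 200`, as lists of increments; position `b` of the list. -/
def listTab : List (List ℤ) := [
lT0, lT1, lT2, lT3, lT4, lT5, lT6, lT7, lT8, lT9, lT10, lT11, lT12, lT13, lT14, lT15,
lT16, lT17, lT18, lT19, lT20, lT21, lT22, lT23, lT24, lT25, lT26, lT27, lT28, lT29, lT30,
lT31, lT32, lT33, lT34, lT35, lT36, lT37, lT38, lT39, lT40, lT41, lT42, lT43, lT44, lT45,
lT46, lT47, lT48, lT49, lT50, lT51, lT52, lT53, lT54, lT55, lT56, lT57, lT58, lT59, lT60,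
lT61, lT62, lT63, lT64, lT65, lT66, lT67, lT68, lT69, lT70, lT71, lT72, lT73, lT74, lT75,
lT76, lT77, lT78, lT79, lT80, lT81, lT82, lT83, lT84, lT85, lT86, lT87, lT88, lT89, lT90,
lT91, lT92, lT93, lT94, lT95, lT96, lT97, lT98, lT99, lT100, lT101, lT102, lT103, lT104,
lT105, lT106, lT107, lT108, lT109, lT110, lT111, lT112, lT113, lT114, lT115, lT116, lT117,
lT118, lT119, lT120, lT121, lT122, lT123, lT124, lT125, lT126, lT127, lT128, lT129, lT130,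
lT131, lT132, lT133, lT134, lT135, lT136, lT137, lT138, lT139, lT140, lT141, lT142, lT143,
lT144, lT145, lT146, lT147, lT148, lT149, lT150, lT151, lT152, lT153, lT154, lT155, lT156,
lT157, lT158, lT159, lT160, lT161, lT162, lT163, lT164, lT165, lT166, lT167, lT168, lT169,
lT170, lT171, lT172, lT173, lT174, lT175, lT176, lT177, lT178, lT179, lT180, lT181, lT182,
lT183, lT184, lT185, lT186, lT187, lT188, lT189, lT190, lT191, lT192, lT193, lT194, lT195,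
lT196, lT197, lT198, lT199, lT200]

/-- The largest `a` reached for `b ≤ 200`. -/
def aSmall (b : ℕ) : ℕ := (5 * (b + 1) + 5) / 8 - 1

/-- The parameter `i` for `b ≤ 200`. -/
def iSmall (b : ℕ) : ℕ := min (b - aSmall b - 1) ((b - 3) / 2)

/-- The test at `b ≤ 200`. -/
def smallOK (b : ℕ) : Bool :=
  Nat.ble (2 * (aSmall b + 1)) (b + 3) ||
    (Nat.beq (listTab.getD b []).length (aSmall b) && listOK b (iSmall b) (listTab.getD b []) &&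
      Nat.ble (2 * iSmall b + 3) b && Nat.blt (aSmall b + iSmall b) b)

/-- The test on an interval. -/
def allR (f : ℕ → Bool) : ℕ → ℕ → Bool
  | 0, _ => true
  | n + 1, s => f s && allR f n (s + 1)

lemma allR_spec {f : ℕ → Bool} (n s : ℕ) (H : allR f n s = true) :
    ∀ x, s ≤ x → x < s + n → f x = true := by
  induction n generalizing s with
  | zero =>
    intro x h1 h2
    omega
  | succ n ih =>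
    simp only [allR, Bool.and_eq_true] at H
    intro x h1 h2
    by_cases h3 : x = s
    · rw [h3]
      exact H.1
    · exact ih (s + 1) H.2 x (by omega) (by omega)

set_option maxRecDepth 100000 in
lemma small_0 : allR smallOK 120 0 = true := by
  decide +kernel

set_option maxRecDepth 100000 in
lemma small_1 : allR smallOK 40 120 = true := by
  decide +kernel

set_option maxRecDepth 100000 in
lemma small_2 : allR smallOK 41 160 = true := by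
  decide +kernel

/-- Profiles for all `b ≤ 200`. -/
theorem prof_small (b a : ℕ) (h1 : b ≤ 200) (h2 : a ≤ aSmall b) (h3 : b + 1 < 2 * a) :
    ∃ (i : ℕ) (s : ℕ → ℤ), Prof b i a s ∧ 2 * i + 3 ≤ b ∧ a + i < b := by
  have T : smallOK b = true := by
    by_cases h5 : b < 120
    · exact allR_spec 120 0 small_0 b (by omega) (by omega)
    · by_cases h6 : b < 160
      · exact allR_spec 40 120 small_1 b (by omega) (by omega)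
      · exact allR_spec 41 160 small_2 b (by omega) (by omega)
  simp only [smallOK, Bool.or_eq_true, Bool.and_eq_true, Nat.ble_eq] at T
  rcases T with T | T
  · omega
  · obtain ⟨⟨⟨T1, T2⟩, T3⟩, T4⟩ := T
    have hlen := Nat.eq_of_beq_eq_true T1
    have P := prof_of_listOK T2
    rw [hlen] at P
    have h5 : aSmall b + iSmall b < b := by simpa using T4
    exact ⟨iSmall b, _, P.restrict h2, T3, by omega⟩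

end Vale.Agent.Lib.P048
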