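import Vale.Agent.Lib.P048.SlopeFast

namespace Vale.Agent.Lib.P048

theorem rSlopeS10_0 : Reach 2435 2440 :=
  reach_row (famF_famB (show famF 2435 1525 908 0x223222223222232222322223222322223222322232232223222322322322322232232232322322322323223232232322323232232323232323232323232323232323233232323323232332332323323323323323323332332333233323332333323333233333233333332333333333333333233333333433333333333333433333343333343333433343334334334334334334334343433434343434343443434434344344344344434443444434440000000000000000000000000000000000000000000000000000000000000000000000000000000000000000000000000000000000000000000000000000000000000000000000000000000000000000000000000000000000000000000000000000000000000000000000000000000000000000000000000000000000000000000000000000000000000000000000000000000000000000000000000000000000000000000000000000000000000000000000000000000000000000000000000000000000000000000000000000000000000000000000000000000000000000000000000000000000000000000000000000000000000000000000000000000000000000000000000000000000000000000000000000000000000000000000000000000000000000000000000000000000000000000000000000000000000000000000000000000000000000000000000000000000000000000000000000000000000000000000000000000000000000000000000000000000000000000000001232323223232322323232232323223232322323223232322323223232232232322323223232232232322322322323223223223223223232232232232232232232232223223223223223222322322322232232223223222322322232223222322232232223222232223222322232222322232222322223222322223222223222232222322222322222322222322222232222223222222322222223222222232222222223222222222322222222222232222222222222223222222222222222222222222222222222222223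 = true by decide +kernel)) (by norm_num)

theorem rSlopeS10_1 : Reach 2435 2446 :=
  reach_trans rSlopeS10_0 (reach_row (famF_famB (show famF 2440 1529 909 0x2322222322223222232222322223222322232223222322232232223223223223223223223223223223232232322323223232322323232323232322323233232323232323233232332323323233232332332332332333233233323323333233323333233333233333233333333233333333333333333333333333333334333333334333334333343333433343343334334334343343433434343434343434343434434434344344344434443444434442000000000000000000000000000000000000000000000000000000000000000000000000000000000000000000000000000000000000000000000000000000000000000000000000000000000000000000000000000000000000000000000000000000000000000000000000000000000000000000000000000000000000000000000000000000000000000000000000000000000000000000000000000000000000000000000000000000000000000000000000000000000000000000000000000000000000000000000000000000000000000000000000000000000000000000000000000000000000000000000000000000000000000000000000000000000000000000000000000000000000000000000000000000000000000000000000000000000000000000000000000000000000000000000000000000000000000000000000000000000000000000000000000000000000000000000000000000000000000000000000000000000000000000000000000000000000000000000000002322323232322323232232323223232322323223232232322323232232232322323223232232232322322322323223223223232232232232232232232232232232232232232223223223223222322322322232232223223222322232223223222322232223222322232222322232223222232222322232222322223222232222232222322222322222322222322222232222223222222322222223222222232222222223222222222322222222222232222222222222223222222222222222222222222222222222222223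 = true by decide +kernel)) (by norm_num))

theorem reachSlopeS10 : Reach 2435 2446 := rSlopeS10_1

end Vale.Agent.Lib.P048
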