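import Vale.Agent.Lib.P048.SlopeTable

namespace Vale.Agent.Lib.P048

/-- The table of slopes for `K = 600`, `I = 225` (first entry 223 omitted); `375` entries in all. -/
def tab85 : List ℤ := [
  220, 218, 216, 214, 212, 210, 208, 206, 204, 202, 200, 198, 196, 194, 192, 190, 188, 186,
  184, 181, 179, 177, 175, 173, 171, 169, 167, 164, 162, 160, 158, 156, 154, 151, 149, 147,
  145, 143, 141, 138, 136, 134, 132, 130, 127, 125, 123, 121, 118, 116, 114, 112, 109, 107,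
  105, 103, 100, 98, 96, 93, 91, 89, 87, 84, 82, 80, 77, 75, 73, 70, 68, 66, 63, 61, 59,
  56, 54, 52, 49, 47, 44, 42, 40, 37, 35, 32, 30, 28, 25, 23, 20, 18, 16, 13, 11, 8, 6, 3,
  1, 0, 0, 0, 0, 0, 0, 0, 0, 0, 0, 0, 0, 0, 0, 0, 0, 0, 0, 0, 0, 0, 0, 0, 0, 0, 0, 0, 0, 0,
  0, 0, 0, 0, 0, 0, 0, 0, 0, 0, 0, 0, 0, 0, 0, 0, 0, 0, 0, 0, 0, 0, 0, 0, 0, 0, 0, 0, 0, 0,
  0, 0, 0, 0, 0, 0, 0, 0, 0, 0, 0, 0, 0, 0, 0, 0, 0, 0, 0, 0, 0, 0, 0, 0, 0, 0, 0, 0, 0, 0,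
  0, 0, 0, 0, 0, 0, 0, 0, 0, 0, 0, 0, 0, 0, 0, 0, 0, 0, 0, 0, 0, 0, 0, 0, 0, 0, 0, 0, 0, 0,
  0, 0, 0, 0, 0, 0, 0, 0, 0, 0, 0, 0, 0, 0, 0, 0, 0, 0, 0, 0, 0, 0, 0, 0, 0, 0, 0, 0, 0, 0,
  0, 0, 0, 0, 0, 0, 0, 0, 0, 0, 0, 0, 0, 0, 0, 0, 0, 0, 0, 0, 0, 0, 0, 0, 0, 0, 0, 0, 0, 0,
  0, 0, 0, 0, 0, 0, 0, 0, 0, 0, -4, -7, -11, -15, -18, -22, -26, -29, -33, -36, -40, -43,
  -47, -50, -54, -57, -60, -63, -67, -70, -73, -76, -79, -83, -86, -89, -92, -95, -98,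
  -101, -104, -107, -110, -113, -115, -118, -121, -124, -127, -130, -132, -135, -138, -140,
  -143, -146, -148, -151, -154, -156, -159, -162, -164, -167, -169, -172, -174, -177, -179,
  -182, -184, -187, -189, -191, -194, -196, -199, -201, -203, -206, -208, -210, -213, -215,
  -217, -219, -222, -224, -226, -228, -231, -233, -235, -237, -239, -242]

lemma tab85_chk : chk ((600 : ℕ) : ℤ) ((225 : ℕ) : ℤ) tab85 1 223 223 = true := by
  decide +kernel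

lemma tab85_len : tab85.length + 1 = 375 := by
  decide +kernel

lemma tab85_ok : TableOk 600 225 223 tab85 where
  hchk := tab85_chk
  h1 := by norm_num
  h2 := by norm_num
  h3 := by norm_num
  h4 := by norm_num
  h5 := by
    refine ⟨?_, ?_, ?_, ?_, ?_⟩ <;> norm_num
  h6 := by
    have := tab85_len
    omega
  h7 := by norm_num
  h8 := by norm_num
  h9 := by
    have := tab85_len
    omega
  h10 := by norm_num

/-- The slope `8/5` profile for every `b`. -/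
theorem exists_prof_85 (a b : ℕ) (h1 : 8 * a + 3000 ≤ 5 * b) (h2 : b + 1 < 2 * a) :
    ∃ (i : ℕ) (s : ℕ → ℤ), Prof b i a s ∧ 2 * i + 3 ≤ b ∧ a + i < b := by
  obtain ⟨w, hw⟩ : ∃ w, w = b / 600 := ⟨_, rfl⟩
  obtain ⟨e, he⟩ : ∃ e, e = b % 600 := ⟨_, rfl⟩
  have hb : b = 600 * w + e := by
    rw [hw, he]
    exact (Nat.div_add_mod b 600).symm
  have he6 : e < 600 := by
    rw [he]
    exact Nat.mod_lt _ (by norm_num)
  have hw5 : 5 ≤ w := by omega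
  have ha : a ≤ 375 * w := by omega
  have P := prof_of_table tab85_ok (w := w) (by omega)
  rw [tab85_len] at P
  have P2 := (P.restrict (a' := a) (by rw [Nat.mul_comm] at *; omega)).shiftN e
  refine ⟨225 * w - 1 + e, sW (223 :: tab85) w, ?_, by omega, by omega⟩
  have e1 : 600 * w + e = b := hb.symm
  rw [e1] at P2
  exact P2

end Vale.Agent.Lib.P048
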